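import Crest.Agent.N76.Red.Basic

/-! # Row 76: packing, maximal separated sets, dyadic layer cake (helper14). -/

set_option autoImplicit false

open MeasureTheory Set Metric
open scoped ENNReal RealInnerProductSpace

namespace Crest.Agent.N76.Red

variable {n : ℕ}

/-- a `1`-separated set in a ball of radius `r` has at most `(2 r + 1) ^ n` points -/
theorem card_le_of_sep (s : Finset (V n)) (x₀ : V n) {r : ℝ} (hr : 0 ≤ r)
    (hs : ∀ c ∈ s, ‖c - x₀‖ ≤ r) (h : ∀ c ∈ s, ∀ d ∈ s, c ≠ d → 1 ≤ ‖c - d‖) :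
    (s.card : ℝ) ≤ (2 * r + 1) ^ n := by
  set A := ⋃ c ∈ s, ball (c : V n) (1 / 2) with hA
  have D : Set.Pairwise (s : Set (V n)) (Function.onFun Disjoint fun c => ball (c : V n) (1 / 2)) := by
    rintro c hc d hd hcd
    apply ball_disjoint_ball
    rw [dist_eq_norm]
    have := h c hc d hd hcd
    linarith
  have A_subset : A ⊆ ball x₀ (r + 1 / 2) := by
    refine iUnion₂_subset fun x hx => ?_
    apply ball_subset_ball'
    rw [dist_eq_norm]
    have := hs x hx
    linarith
  have hρ : 0 < r + 1 / 2 := by linarith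
  have I : (s.card : ℝ≥0∞) * ENNReal.ofReal ((1 / 2 : ℝ) ^ n) * volume (ball (0 : V n) 1) ≤
      ENNReal.ofReal ((r + 1 / 2) ^ n) * volume (ball (0 : V n) 1) :=
    calc (s.card : ℝ≥0∞) * ENNReal.ofReal ((1 / 2 : ℝ) ^ n) * volume (ball (0 : V n) 1)
        = volume A := by
          rw [hA, measure_biUnion_finset D fun c _ => measurableSet_ball]
          have I : (0 : ℝ) < 1 / 2 := by norm_num
          simp only [Measure.addHaar_ball_of_pos volume _ I]
          simp only [Finset.sum_const, nsmul_eq_mul, mul_assoc, finrank_euclideanSpace,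
            Fintype.card_fin]
      _ ≤ volume (ball x₀ (r + 1 / 2)) := measure_mono A_subset
      _ = _ := by
          simp only [Measure.addHaar_ball_of_pos volume _ hρ, finrank_euclideanSpace,
            Fintype.card_fin]
  have J : (s.card : ℝ≥0∞) * ENNReal.ofReal ((1 / 2 : ℝ) ^ n) ≤ ENNReal.ofReal ((r + 1 / 2) ^ n) :=
    (ENNReal.mul_le_mul_iff_left (measure_ball_pos _ _ zero_lt_one).ne' measure_ball_lt_top.ne).1 I
  have K := ENNReal.toReal_le_of_le_ofReal (pow_nonneg hρ.le _) J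
  rw [ENNReal.toReal_mul, ENNReal.toReal_natCast, ENNReal.toReal_ofReal (by positivity)] at K
  have h2 : (2 * r + 1) ^ n * (1 / 2 : ℝ) ^ n = (r + 1 / 2) ^ n := by
    rw [← mul_pow]; congr 1; ring
  rw [← h2] at K
  exact le_of_mul_le_mul_right K (by positivity)

/-- a bounded set has a finite separated subset whose unit balls cover it -/
theorem exists_sep_cover (S : Set (V n)) {r : ℝ} (hr : 0 ≤ r) (hS : ∀ x ∈ S, ‖x‖ ≤ r) :
    ∃ Y : Finset (V n), (∀ y ∈ Y, y ∈ S) ∧ (∀ c ∈ Y, ∀ d ∈ Y, c ≠ d → 1 ≤ ‖c - d‖) ∧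
      volume S ≤ Y.card * volume (ball (0 : V n) 1) := by
  classical
  set P : ℕ → Prop := fun k => ∃ Y : Finset (V n), (∀ y ∈ Y, y ∈ S) ∧
    (∀ c ∈ Y, ∀ d ∈ Y, c ≠ d → 1 ≤ ‖c - d‖) ∧ Y.card = k with hP
  obtain ⟨B, hB⟩ := exists_nat_ge ((2 * r + 1) ^ n)
  have hle : ∀ k, P k → k ≤ B := by
    rintro k ⟨Y, h1, h2, rfl⟩
    have := card_le_of_sep Y 0 hr (fun c hc => by simpa using hS c (h1 c hc)) h2
    exact_mod_cast this.trans hB
  have h0 : P 0 := ⟨∅, by simp, by simp, rfl⟩
  obtain ⟨Y, h1, h2, h3⟩ : P (Nat.findGreatest P B) := Nat.findGreatest_spec (Nat.zero_le B) h0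
  refine ⟨Y, h1, h2, ?_⟩
  have hcov : S ⊆ ⋃ y ∈ Y, ball y 1 := by
    intro x hx
    by_contra hcon
    simp only [mem_iUnion, mem_ball, dist_eq_norm, not_exists, not_lt] at hcon
    have hxY : x ∉ Y := fun hxY => by
      have := hcon x hxY
      simp at this
      linarith
    have hP' : P (Y.card + 1) := by
      refine ⟨insert x Y, ?_, ?_, Finset.card_insert_of_notMem hxY⟩
      · intro y hy
        rcases Finset.mem_insert.1 hy with rfl | hy
        exacts [hx, h1 y hy]
      · intro c hc d hd hcd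
        rcases Finset.mem_insert.1 hc with rfl | hc' <;>
          rcases Finset.mem_insert.1 hd with rfl | hd'
        · exact absurd rfl hcd
        · exact hcon d hd'
        · rw [norm_sub_rev]; exact hcon c hc'
        · exact h2 c hc' d hd' hcd
    have := Nat.le_findGreatest (hle _ hP') hP'
    omega
  refine (measure_mono hcov).trans ((measure_biUnion_finset_le _ _).trans (le_of_eq ?_))
  simp only [Measure.addHaar_ball_center volume _ (1 : ℝ), Finset.sum_const, nsmul_eq_mul]

/-- dyadic layer cake -/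
theorem lintegral_le_of_levels {α : Type*} [MeasurableSpace α] (μ : Measure α) {F : α → ℝ}
    (hF : Measurable F) {l M : ℝ} (hl : 0 < l) (hM : 0 ≤ M)
    (h : ∀ k : ℕ, μ {x | 2 ^ k * l ≤ F x} ≤ ENNReal.ofReal (M / 4 ^ k)) :
    ∫⁻ x, ENNReal.ofReal (F x) ∂μ ≤ ENNReal.ofReal l * μ univ + ENNReal.ofReal (4 * l * M) := by
  have hm : ∀ k : ℕ, MeasurableSet {x | 2 ^ k * l ≤ F x} := fun k =>
    measurableSet_le measurable_const hF
  have hpt : ∀ x, ENNReal.ofReal (F x) ≤ ENNReal.ofReal l +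
      ∑' k : ℕ, {x | 2 ^ k * l ≤ F x}.indicator (fun _ => ENNReal.ofReal (2 ^ (k + 1) * l)) x := by
    intro x
    rcases le_or_gt (F x) l with hx | hx
    · exact (ENNReal.ofReal_le_ofReal hx).trans le_self_add
    · obtain ⟨k, hk1, hk2⟩ := exists_nat_pow_near (x := F x / l) (y := (2 : ℝ))
        ((one_le_div hl).2 hx.le) one_lt_two
      refine le_trans ?_ le_add_self
      refine le_trans ?_ (ENNReal.le_tsum k)
      rw [indicator_of_mem (show x ∈ {x | 2 ^ k * l ≤ F x} from (le_div_iff₀ hl).1 hk1)]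
      exact ENNReal.ofReal_le_ofReal ((div_lt_iff₀ hl).1 hk2).le
  refine (lintegral_mono hpt).trans ?_
  rw [lintegral_add_left measurable_const, lintegral_const,
    lintegral_tsum fun k => (measurable_const.indicator (hm k)).aemeasurable]
  gcongr
  have h2 : ∀ k : ℕ, ∫⁻ x, {x | 2 ^ k * l ≤ F x}.indicator
      (fun _ => ENNReal.ofReal (2 ^ (k + 1) * l)) x ∂μ ≤
      ENNReal.ofReal (2 * l * M * (1 / 2) ^ k) := by
    intro k
    rw [lintegral_indicator_const (hm k)]
    refine (mul_le_mul_right (h k) _).trans (le_of_eq ?_)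
    rw [← ENNReal.ofReal_mul (by positivity)]
    congr 1
    have : (4 : ℝ) ^ k = 2 ^ k * 2 ^ k := by rw [← mul_pow]; norm_num
    rw [this, one_div, inv_pow]; field_simp; ring
  refine (ENNReal.tsum_le_tsum h2).trans (le_of_eq ?_)
  rw [← ENNReal.ofReal_tsum_of_nonneg (fun k => by positivity)
    (summable_geometric_two.mul_left _), tsum_mul_left, tsum_geometric_two]
  congr 1; ring

end Crest.Agent.N76.Red
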