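import Crest.Agent.N76.Red.Max

/-! # Row 76: the single scale estimate `SS n` implies statement S0101 (helper14). -/

set_option autoImplicit false

open MeasureTheory Set Metric Filter Topology FourierTransform
open scoped ENNReal RealInnerProductSpace SchwartzMap

namespace Crest.Agent.N76.Red

variable {n : ℕ}

theorem exists_limit {F : ℝ → ℝ → ℂ} {y : ℂ} {p : Filter ℝ} [p.NeBot]
    (h : ∀ ε : ℝ, 0 < ε → ∃ w : ℝ → ℂ, Continuous w ∧ ‖w 0 - y‖ ≤ ε ∧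
      ∀ᶠ a in p, ∀ t, ‖F a t - w t‖ ≤ ε) :
    ∃ v : ℝ → ℂ, Continuous v ∧ v 0 = y ∧ TendstoUniformlyOn F v p univ := by
  have hC : UniformCauchySeqOn F p univ := by
    intro u hu
    obtain ⟨ε, hε, hεu⟩ := Metric.mem_uniformity_dist.1 hu
    obtain ⟨w, -, -, hw⟩ := h (ε / 3) (by positivity)
    filter_upwards [hw.prod_mk hw] with m hm t _
    refine hεu ?_
    rw [dist_eq_norm]
    calc ‖F m.1 t - F m.2 t‖ = ‖(F m.1 t - w t) - (F m.2 t - w t)‖ := by congr 1; ring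
      _ ≤ ε / 3 + ε / 3 := (norm_sub_le _ _).trans (add_le_add (hm.1 t) (hm.2 t))
      _ < ε := by linarith
  choose v hv using fun t => cauchy_map_iff_exists_tendsto.1 (hC.cauchy_map (mem_univ t))
  have hvw : ∀ ε : ℝ, 0 < ε → ∃ w : ℝ → ℂ, Continuous w ∧ ‖w 0 - y‖ ≤ ε ∧
      ∀ t, ‖v t - w t‖ ≤ ε := by
    intro ε hε
    obtain ⟨w, h1, h2, h3⟩ := h ε hε
    exact ⟨w, h1, h2, fun t => le_of_tendsto ((hv t).sub_const (w t)).norm
      (h3.mono fun a ha => ha t)⟩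
  refine ⟨v, continuous_of_uniform_approx_of_continuous fun u hu => ?_, ?_,
    hC.tendstoUniformlyOn_of_tendsto fun t _ => hv t⟩
  · obtain ⟨ε, hε, hεu⟩ := Metric.mem_uniformity_dist.1 hu
    obtain ⟨w, h1, -, h3⟩ := hvw (ε / 2) (by positivity)
    exact ⟨w, h1, fun t => hεu (by rw [dist_eq_norm]; linarith [h3 t])⟩
  · refine eq_of_forall_dist_le fun ε hε => ?_
    obtain ⟨w, -, h2, h3⟩ := hvw (ε / 2) (by positivity)
    rw [dist_eq_norm]
    calc ‖v 0 - y‖ = ‖(v 0 - w 0) + (w 0 - y)‖ := by congr 1; ring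
      _ ≤ ε / 2 + ε / 2 := (norm_add_le _ _).trans (add_le_add (h3 0) h2)
      _ = ε := by ring

theorem continuous_U_zero {ψ : V n → ℂ} (hψ : Integrable ψ) (x : V n) :
    Continuous fun t => U ψ 0 t x := by
  refine continuous_of_dominated (bound := fun ξ => ‖ψ ξ‖) (fun t => ?_) (fun t => ?_) hψ.norm ?_
  · exact (continuous_Kr.comp (f := fun ξ : V n => ((x, ξ), 0, t))
      (by fun_prop)).aestronglyMeasurable.mul hψ.1
  · exact Eventually.of_forall fun ξ => by simp [norm_Kr]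
  · exact Eventually.of_forall fun ξ => (continuous_Kr.comp
      (f := fun t : ℝ => ((x, ξ), 0, t)) (by fun_prop)).mul continuous_const

theorem U_zero_zero (ψ : V n → ℂ) (x : V n) : U ψ 0 0 x = 𝓕⁻ ψ x := by
  rw [Real.fourierInv_eq', U]
  congr 1; ext ξ
  rw [smul_eq_mul, Kr, real_inner_comm]
  congr 2; push_cast; ring

theorem eventually_U_sub {ψ : V n → ℂ} (hψ : Integrable ψ) (x : V n) {ε : ℝ} (hε : 0 < ε) :
    ∀ᶠ a in 𝓝[>] (0 : ℝ), ∀ t, ‖U ψ a t x - U ψ 0 t x‖ ≤ ε := by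
  set G : ℝ → V n → ℝ := fun a ξ =>
    (1 - Real.exp (-(4 * Real.pi ^ 2 * |a| * ‖ξ‖ ^ 2))) * ‖ψ ξ‖ with hG
  have h01 : ∀ (a : ℝ) (ξ : V n), 0 ≤ 1 - Real.exp (-(4 * Real.pi ^ 2 * |a| * ‖ξ‖ ^ 2)) :=
    fun a ξ => sub_nonneg.2 (Real.exp_le_one_iff.2 (neg_nonpos.2 (by positivity)))
  have hm : ∀ a, AEStronglyMeasurable (G a) volume := fun a =>
    (Continuous.aestronglyMeasurable (by fun_prop)).mul hψ.1.norm
  have hb : ∀ a ξ, ‖G a ξ‖ ≤ ‖ψ ξ‖ := fun a ξ => by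
    rw [Real.norm_of_nonneg (mul_nonneg (h01 a ξ) (norm_nonneg _))]
    exact mul_le_of_le_one_left (norm_nonneg _) (by linarith [Real.exp_pos (-(4 * Real.pi ^ 2 * |a| * ‖ξ‖ ^ 2))])
  have hc : Continuous fun a => ∫ ξ, G a ξ :=
    continuous_of_dominated hm (fun a => Eventually.of_forall (hb a)) hψ.norm
      (Eventually.of_forall fun ξ => by simp only [hG]; fun_prop)
  have h0 : ∀ᶠ a in 𝓝 (0 : ℝ), ∫ ξ, G a ξ < ε :=
    hc.continuousAt.eventually (gt_mem_nhds (by simpa [hG] using hε))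
  filter_upwards [nhdsWithin_le_nhds h0, self_mem_nhdsWithin] with a ha ha0 t
  have ha0' : 0 < a := ha0
  have hi : ∀ b : ℝ, 0 ≤ b → Integrable fun ξ => Kr x ξ b t * ψ ξ := fun b hb =>
    hψ.norm.mono' ((continuous_Kr.comp (f := fun ξ : V n => ((x, ξ), b, t))
      (by fun_prop)).aestronglyMeasurable.mul hψ.1) (Eventually.of_forall fun ξ => by
        rw [norm_mul]
        exact mul_le_of_le_one_left (norm_nonneg _) ((norm_Kr_le x ξ hb t).trans (by simp)))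
  rw [U, U, ← integral_sub (hi a ha0'.le) (hi 0 le_rfl)]
  refine (norm_integral_le_integral_norm _).trans (le_trans (le_of_eq ?_) ha.le)
  congr 1; ext ξ
  have h2 := h01 a ξ
  simp only [hG, abs_of_pos ha0'] at h2 ⊢
  rw [← sub_mul, norm_mul, Kr_eq, Kr_eq, ← sub_mul, norm_mul, norm_ph, mul_one,
    ← Complex.ofReal_sub, Complex.norm_real, norm_sub_rev]
  simp only [mul_zero, zero_mul, neg_zero, Real.exp_zero]
  rw [Real.norm_of_nonneg h2]

theorem lintegral_sq_eq (F : Lp ℂ 2 (volume : Measure (V n))) : ∫⁻ x, ‖F x‖ₑ ^ 2 = ‖F‖ₑ ^ 2 := by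
  have := eLpNorm_nnreal_pow_eq_lintegral (f := F) (p := 2) (μ := volume) two_ne_zero
  simp only [ENNReal.coe_ofNat, NNReal.coe_ofNat, ENNReal.rpow_two] at this
  rw [Lp.enorm_def, this]

theorem temperate_wt : Function.HasTemperateGrowth fun ξ : V n => (wt n ξ : ℂ) := by
  unfold wt; fun_prop

theorem fourier_eq_wt_mul (f : Lp ℂ 2 (volume : Measure (V n)))
    (hf : TemperedDistribution.MemSobolev ((n : ℝ) / (2 * (n + 1))) 2
      (f : TemperedDistribution (V n) ℂ)) :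
    ∃ u : Lp ℂ 2 (volume : Measure (V n)),
      (𝓕 f : Lp ℂ 2 (volume : Measure (V n))) =ᵐ[volume] fun ξ => (wt n ξ : ℂ) * u ξ := by
  obtain ⟨u, hu⟩ := TemperedDistribution.memSobolev_iff_exists_smulLeftCLM_fourier.1 hf
  have hw : MemLp (fun ξ : V n => (wt n ξ : ℂ)) ∞ volume :=
    memLp_top_of_bound (Complex.continuous_ofReal.comp continuous_wt).aestronglyMeasurable 1
      (Eventually.of_forall fun ξ => by
        rw [Complex.norm_real, Real.norm_of_nonneg (wt_pos ξ).le]; exact wt_le_one ξ)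
  have h1 : ((hw.toLp _ • u : Lp ℂ 2 (volume : Measure (V n))) : TemperedDistribution (V n) ℂ) =
      (𝓕 f : Lp ℂ 2 (volume : Measure (V n))) := by
    rw [Lp.toTemperedDistribution_smul_eq temperate_wt, ← hu,
      TemperedDistribution.smulLeftCLM_smulLeftCLM_apply (by fun_prop) temperate_wt,
      ← Lp.fourier_toTemperedDistribution_eq]
    convert! (TemperedDistribution.smulLeftCLM_const 1 (𝓕 (f : TemperedDistribution (V n) ℂ)))
      using 1
    · congr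
      ext x
      rw [Pi.mul_apply, wt]
      norm_cast
      rw [← Real.rpow_add (by positivity)]
      ring_nf
      simp
    · simp
  have hinj : Function.Injective (Lp.toTemperedDistributionCLM ℂ (volume : Measure (V n)) 2) :=
    LinearMap.ker_eq_bot.1 Lp.ker_toTemperedDistributionCLM_eq_bot
  have h2 : (hw.toLp _ • u : Lp ℂ 2 (volume : Measure (V n))) = 𝓕 f := hinj h1
  refine ⟨u, ?_⟩
  rw [← h2]
  filter_upwards [Lp.coeFn_lpSMul (r := 2) (hw.toLp _) u, hw.coeFn_toLp] with x h3 h4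
  rw [h3, Pi.smul_apply', h4, smul_eq_mul]

theorem exists_approx (f u : Lp ℂ 2 (volume : Measure (V n)))
    (hu : (𝓕 f : Lp ℂ 2 (volume : Measure (V n))) =ᵐ[volume] fun ξ => (wt n ξ : ℂ) * u ξ)
    {δ : ℝ} (hδ : 0 < δ) : ∃ φ ψ : 𝓢(V n, ℂ), (∀ ξ, ψ ξ = (wt n ξ : ℂ) * φ ξ) ∧
      ∫⁻ ξ, ‖u ξ - φ ξ‖ₑ ^ 2 ≤ ENNReal.ofReal δ ^ 2 ∧
      ∫⁻ x, ‖𝓕⁻ (ψ : V n → ℂ) x - f x‖ₑ ^ 2 ≤ ENNReal.ofReal δ ^ 2 := by
  obtain ⟨φ, hφ⟩ := (SchwartzMap.denseRange_toLpCLM (E := V n) (F := ℂ) (p := 2)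
    (μ := volume) ENNReal.ofNat_ne_top).exists_dist_lt u hδ
  rw [SchwartzMap.toLpCLM_apply, dist_eq_norm] at hφ
  set ψ : 𝓢(V n, ℂ) := SchwartzMap.smulLeftCLM ℂ (fun ξ : V n => (wt n ξ : ℂ)) φ with hψ
  have hψφ : ∀ ξ, ψ ξ = (wt n ξ : ℂ) * φ ξ := fun ξ => by
    rw [hψ, SchwartzMap.smulLeftCLM_apply_apply temperate_wt, smul_eq_mul]
  have h1 : ∫⁻ ξ, ‖u ξ - φ ξ‖ₑ ^ 2 ≤ ENNReal.ofReal δ ^ 2 := by
    calc ∫⁻ ξ, ‖u ξ - φ ξ‖ₑ ^ 2 = ∫⁻ ξ, ‖(u - φ.toLp 2 volume : Lp ℂ 2 (volume : Measure (V n))) ξ‖ₑ ^ 2 := by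
          refine lintegral_congr_ae ?_
          filter_upwards [Lp.coeFn_sub u (φ.toLp 2 volume), φ.coeFn_toLp 2 volume] with ξ h1 h2
          rw [h1, Pi.sub_apply, h2]
      _ ≤ _ := by
          rw [lintegral_sq_eq, ← ofReal_norm]
          gcongr
  refine ⟨φ, ψ, hψφ, h1, le_trans ?_ h1⟩
  calc ∫⁻ x, ‖𝓕⁻ (ψ : V n → ℂ) x - f x‖ₑ ^ 2 
      = ∫⁻ x, ‖(SchwartzMap.toLp (𝓕⁻ ψ) 2 volume - f : Lp ℂ 2 (volume : Measure (V n))) x‖ₑ ^ 2 := by
        refine lintegral_congr_ae ?_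
        filter_upwards [Lp.coeFn_sub (SchwartzMap.toLp (𝓕⁻ ψ) 2 volume) f,
          SchwartzMap.coeFn_toLp (𝓕⁻ ψ) 2 volume] with x h1 h2
        rw [h1, Pi.sub_apply, h2, SchwartzMap.fourierInv_coe]
    _ = ∫⁻ ξ, ‖(ψ.toLp 2 volume - 𝓕 f : Lp ℂ 2 (volume : Measure (V n))) ξ‖ₑ ^ 2 := by
        rw [lintegral_sq_eq, lintegral_sq_eq, ← ofReal_norm, ← ofReal_norm,
          ← Lp.norm_fourier_eq, ← SchwartzMap.toLp_fourierInv_eq, sub_eq_add_neg,
          FourierTransform.fourier_add, FourierTransform.fourier_neg, fourier_fourierInv_eq,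
          ← sub_eq_add_neg]
    _ ≤ _ := by
        refine lintegral_mono_ae ?_
        filter_upwards [Lp.coeFn_sub (ψ.toLp 2 volume) (𝓕 f), ψ.coeFn_toLp 2 volume, hu] with ξ h1 h2 h3
        rw [h1, Pi.sub_apply, h2, h3, hψφ, ← mul_sub, enorm_mul, enorm_sub_rev]
        refine pow_le_pow_left' (mul_le_of_le_one_left' ?_) 2
        rw [← ofReal_norm, Complex.norm_real, Real.norm_of_nonneg (wt_pos ξ).le]
        exact ENNReal.ofReal_le_one.2 (wt_le_one ξ)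

theorem ae_approx (hn : 1 ≤ n) (hSS : SS n) (f u : Lp ℂ 2 (volume : Measure (V n)))
    (hu : (𝓕 f : Lp ℂ 2 (volume : Measure (V n))) =ᵐ[volume] fun ξ => (wt n ξ : ℂ) * u ξ)
    (x₀ : V n) {lam : ℝ} (hlam : 0 < lam) :
    ∀ᵐ x, x ∈ closedBall x₀ 1 → ∃ ψ : V n → ℂ, Integrable ψ ∧ ‖𝓕⁻ ψ x - f x‖ ≤ lam ∧
      ∀ a t : ℝ, 0 < a → ‖U (fun ξ => (wt n ξ : ℂ) * u ξ) a t x - U ψ a t x‖ ≤ lam := by
  obtain ⟨C, hC, hmax⟩ := weak_max hn hSS
  rw [ae_iff]
  set Bad := {x : V n | ¬ (x ∈ closedBall x₀ 1 → ∃ ψ : V n → ℂ, Integrable ψ ∧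
    ‖𝓕⁻ ψ x - f x‖ ≤ lam ∧
      ∀ a t : ℝ, 0 < a → ‖U (fun ξ => (wt n ξ : ℂ) * u ξ) a t x - U ψ a t x‖ ≤ lam)} with hBad
  have key : ∀ δ : ℝ, 0 < δ →
      ENNReal.ofReal lam ^ 2 * volume Bad ≤ (C + 1) * ENNReal.ofReal δ ^ 2 := by
    intro δ hδ
    obtain ⟨φ, ψ, hψ, h1, h2⟩ := exists_approx f u hu hδ
    have mr : Measurable fun ξ => u ξ - φ ξ :=
      (Lp.stronglyMeasurable u).measurable.sub φ.continuous.measurable
    have hr : MemLp (fun ξ => u ξ - φ ξ) 2 volume := (Lp.memLp u).sub (φ.memLp 2)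
    have h3 := hmax x₀ _ mr hr lam hlam
    have mf : Measurable fun x => ‖𝓕⁻ (ψ : V n → ℂ) x - f x‖ₑ ^ 2 := by
      rw [← SchwartzMap.fourierInv_coe]
      exact ((𝓕⁻ ψ).continuous.measurable.sub
        (Lp.stronglyMeasurable f).measurable).enorm.pow_const 2
    have h4 := mul_meas_ge_le_lintegral₀ (μ := volume) mf.aemeasurable (ENNReal.ofReal lam ^ 2)
    have hsub : Bad ⊆ {x | x ∈ closedBall x₀ 1 ∧ ∃ a t : ℝ, 0 < a ∧
        lam < ‖U (fun ξ => (wt n ξ : ℂ) * (u ξ - φ ξ)) a t x‖} ∪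
        {x | ENNReal.ofReal lam ^ 2 ≤ ‖𝓕⁻ (ψ : V n → ℂ) x - f x‖ₑ ^ 2} := by
      intro x hx
      by_contra hcon
      rw [mem_union, not_or] at hcon
      refine hx fun hxb => ⟨ψ, ψ.integrable, ?_, fun a t ha => ?_⟩
      · by_contra h5
        refine hcon.2 (mem_setOf.2 (pow_le_pow_left' ?_ 2))
        rw [← ofReal_norm]
        exact ENNReal.ofReal_le_ofReal (not_le.1 h5).le
      · by_contra h5
        refine hcon.1 ⟨hxb, a, t, ha, (not_le.1 h5).trans_eq ?_⟩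
        rw [U, U, U, ← integral_sub (integrable_Kr_mul (memLp_wt_mul (Lp.memLp u)) ha t x)
          (integrable_Kr_mul (ψ.memLp 2) ha t x)]
        congr 2; ext ξ; rw [hψ]; ring
    calc ENNReal.ofReal lam ^ 2 * volume Bad ≤ _ :=
          mul_le_mul_right ((measure_mono hsub).trans (measure_union_le _ _)) _
      _ ≤ C * ENNReal.ofReal δ ^ 2 + ENNReal.ofReal δ ^ 2 := by
          rw [mul_add]
          exact add_le_add (h3.trans (mul_le_mul_right h1 _)) (h4.trans h2)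
      _ = _ := by ring
  have ht : Tendsto (fun δ : ℝ => (C + 1) * ENNReal.ofReal δ ^ 2) (𝓝[>] 0) (𝓝 0) := by
    have h1 : Tendsto (fun δ : ℝ => ENNReal.ofReal δ ^ 2) (𝓝 0) (𝓝 0) := by
      have := ((ENNReal.continuous_pow 2).comp ENNReal.continuous_ofReal).tendsto 0
      simpa [Function.comp_def] using this
    have := ENNReal.Tendsto.const_mul (a := C + 1) h1 (Or.inr (by finiteness))
    simpa using this.mono_left nhdsWithin_le_nhds
  have h0 : ENNReal.ofReal lam ^ 2 * volume Bad ≤ 0 :=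
    ge_of_tendsto ht (eventually_nhdsWithin_of_forall key)
  rcases mul_eq_zero.1 (le_antisymm h0 zero_le) with h | h
  · exact absurd h (pow_ne_zero 2 (ENNReal.ofReal_pos.2 hlam).ne')
  · exact h

/-- **The reduction**: the single scale theorem implies S0101 in dimension `n`. -/
theorem s0101_of_SS (n : ℕ) (hn : 1 ≤ n) (hSS : SS n)
    (f : MeasureTheory.Lp ℂ 2 (MeasureTheory.volume : MeasureTheory.Measure (EuclideanSpace ℝ (Fin n))))
    (hf : TemperedDistribution.MemSobolev ((n : ℝ) / (2 * (n + 1))) 2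
      (f : TemperedDistribution (EuclideanSpace ℝ (Fin n)) ℂ)) :
    ∀ᵐ x ∂(MeasureTheory.volume : MeasureTheory.Measure (EuclideanSpace ℝ (Fin n))), ∃ v : ℝ → ℂ,
      ContinuousOn v (Set.Ico 0 1) ∧ v 0 = f x ∧
      TendstoUniformlyOn
        (fun (a : ℝ) (t : ℝ) => ∫ ξ : EuclideanSpace ℝ (Fin n),
          Complex.exp (2 * Real.pi * ⟪x, ξ⟫ * Complex.I
            - 4 * Real.pi ^ 2 * ‖ξ‖ ^ 2 * ((a : ℂ) + t * Complex.I)) *
          (𝓕 f : MeasureTheory.Lp ℂ 2 (MeasureTheory.volume : MeasureTheory.Measure (EuclideanSpace ℝ (Fin n)))) ξ)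
        v (nhdsWithin 0 (Set.Ioi 0)) (Set.Ioo 0 1) := by
  obtain ⟨u, hu⟩ := fourier_eq_wt_mul f hf
  have h1 := fun (i m : ℕ) => ae_approx hn hSS f u hu (TopologicalSpace.denseSeq (V n) i)
    (lam := 1 / ((m : ℝ) + 1)) Nat.one_div_pos_of_nat
  filter_upwards [ae_all_iff.2 fun i => ae_all_iff.2 fun m => h1 i m] with x hx
  obtain ⟨i, hi⟩ := (TopologicalSpace.denseRange_denseSeq (V n)).exists_dist_lt x one_pos
  obtain ⟨v, hv1, hv2, hv3⟩ := exists_limit (p := 𝓝[>] (0 : ℝ)) (y := f x)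
    (F := fun a t => U (fun ξ => (wt n ξ : ℂ) * u ξ) a t x) fun ε hε => by
      obtain ⟨m, hm⟩ := exists_nat_one_div_lt (half_pos hε)
      obtain ⟨ψ, hψ, h2, h3⟩ := hx i m (mem_closedBall.2 hi.le)
      refine ⟨fun t => U ψ 0 t x, continuous_U_zero hψ x, ?_, ?_⟩
      · simp only [U_zero_zero]; linarith
      · filter_upwards [eventually_U_sub hψ x (half_pos hε), self_mem_nhdsWithin] with a ha ha0 t
        calc _ = ‖(U (fun ξ => (wt n ξ : ℂ) * u ξ) a t x - U ψ a t x) +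
              (U ψ a t x - U ψ 0 t x)‖ := by congr 1; ring
          _ ≤ 1 / ((m : ℝ) + 1) + ε / 2 := (norm_add_le _ _).trans (add_le_add (h3 a t ha0) (ha t))
          _ ≤ ε := by linarith
  refine ⟨v, hv1.continuousOn, hv2, ?_⟩
  convert hv3.mono (subset_univ _) using 3 with a t
  refine integral_congr_ae ?_
  filter_upwards [hu] with ξ hξ
  rw [hξ]; rfl

end Crest.Agent.N76.Red
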