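import Mathlib

/-! # Row 76 (S0101): interface of the reduction to one frequency scale (helper14).

`SS n` is the single scale level set estimate; `N76/Red/Main.lean` proves `SS n → S0101 (n)`. -/

set_option autoImplicit false

open MeasureTheory Set Metric
open scoped ENNReal RealInnerProductSpace

namespace Crest.Agent.N76.Red

/-- the ambient Euclidean space -/
abbrev V (n : ℕ) := EuclideanSpace ℝ (Fin n)

/-- `e(r) = exp (2 π i r)` -/
noncomputable def ph (r : ℝ) : ℂ := Complex.exp (2 * Real.pi * r * Complex.I)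

/-- the extension operator of the paraboloid, at the space-time point `z = (x, t)` -/
noncomputable def ext {n : ℕ} (h : V n → ℂ) (z : V n × ℝ) : ℂ :=
  ∫ ξ, h ξ * ph (⟪z.1, ξ⟫ + z.2 * ‖ξ‖ ^ 2)

/-- **Single scale theorem**, level set form, for finite graphs `X` over a `1`-separated set. -/
def SS (n : ℕ) : Prop :=
  ∃ c C : ℝ, 0 < c ∧ ∀ R : ℝ, 1 ≤ R → ∀ X : Finset (V n × ℝ),
    (∀ z ∈ X, ‖z.1‖ ≤ R ∧ |z.2| ≤ R) →
    (∀ z ∈ X, ∀ z' ∈ X, z ≠ z' → 1 ≤ ‖z.1 - z'.1‖) →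
    ∀ h : V n → ℂ, MemLp h 2 volume → (∀ ξ, 1 < ‖ξ‖ → h ξ = 0) →
    ∀ lam : ℝ, 0 ≤ lam → (∀ z ∈ X, lam ≤ ‖ext h z‖) →
      lam ^ 2 * (X.card : ℝ) ≤
        C * R ^ ((n : ℝ) / (n + 1)) * ((X.card : ℝ) / R ^ n) ^ c * ∫ ξ, ‖h ξ‖ ^ 2

/-- space-time Fourier transform of the measure `g(x) dx` carried by the graph of `τ` -/
noncomputable def HH {n : ℕ} (g : V n → ℂ) (τ : V n → ℝ) (ξ : V n) (σ : ℝ) : ℂ :=
  ∫ x, g x * ph (⟪x, ξ⟫ + τ x * σ)

/-- its restriction to the paraboloid -/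
noncomputable def H {n : ℕ} (g : V n → ℂ) (τ : V n → ℝ) (ξ : V n) : ℂ := HH g τ ξ (‖ξ‖ ^ 2)

/-- admissible coefficient functions: measurable, bounded by the indicator of `E` -/
def Adm {n : ℕ} (E : Set (V n)) (g : V n → ℂ) : Prop :=
  Measurable g ∧ (∀ x, ‖g x‖ ≤ 1) ∧ ∀ x, x ∉ E → g x = 0

/-- restricted dual norm (squared) at frequencies at most `N` -/
noncomputable def Phi {n : ℕ} (E : Set (V n)) (τ : V n → ℝ) (N : ℝ) : ℝ≥0∞ :=
  ⨆ g : V n → ℂ, ⨆ _ : Adm E g, ∫⁻ ξ in closedBall (0 : V n) N, ‖H g τ ξ‖ₑ ^ 2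

end Crest.Agent.N76.Red
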