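import Crest.Agent.N76.Red.StepE

/-! # Row 76: the dual estimate at all frequencies, and the Poisson kernel (helper14). -/

set_option autoImplicit false

open MeasureTheory Set Metric FourierTransform
open scoped ENNReal RealInnerProductSpace

namespace Crest.Agent.N76.Red

variable {n : ℕ}

/-- the inverse Sobolev weight -/
noncomputable def wt (n : ℕ) (ξ : V n) : ℝ := (1 + ‖ξ‖ ^ 2) ^ (-((n : ℝ) / (2 * (n + 1))) / 2)

theorem wt_pos (ξ : V n) : 0 < wt n ξ := by unfold wt; positivity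

theorem wt_le_one (ξ : V n) : wt n ξ ≤ 1 := by
  refine Real.rpow_le_one_of_one_le_of_nonpos (by simp) ?_
  have : (0 : ℝ) ≤ (n : ℝ) / (2 * (n + 1)) := by positivity
  linarith

theorem continuous_wt : Continuous (wt n) :=
  Continuous.rpow_const (by fun_prop) fun ξ => Or.inl (by positivity)

theorem wt_sq_le {ξ : V n} {N : ℝ} (hN : 0 < N) (h : N ≤ ‖ξ‖) :
    wt n ξ ^ 2 ≤ (N ^ ((n : ℝ) / (n + 1)))⁻¹ := by
  have h0 : (0 : ℝ) ≤ (n : ℝ) / (2 * (n + 1)) := by positivity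
  have h1 : wt n ξ ≤ (N ^ 2) ^ (-((n : ℝ) / (2 * (n + 1))) / 2) :=
    Real.rpow_le_rpow_of_nonpos (by positivity) (by nlinarith) (by linarith)
  refine (pow_le_pow_left₀ (wt_pos ξ).le h1 2).trans (le_of_eq ?_)
  rw [← Real.rpow_natCast, ← Real.rpow_natCast, ← Real.rpow_mul hN.le, ← Real.rpow_mul hN.le,
    ← Real.rpow_neg hN.le]
  congr 1; push_cast; field_simp

theorem dual_zero (hn : 1 ≤ n) (hSS : SS n) : ∃ C : ℝ≥0∞, C ≠ ∞ ∧
    ∀ E : Set (V n), MeasurableSet E → E ⊆ closedBall 0 1 → ∀ τ : V n → ℝ, Measurable τ →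
      ∀ B : ℝ, (∀ x ∈ E, |τ x| ≤ B) → ∀ g, Adm E g →
      ∫⁻ ξ, ENNReal.ofReal (wt n ξ ^ 2) * ‖H g τ ξ‖ₑ ^ 2 ≤ C * volume E := by
  classical
  obtain ⟨C₁, hC₁, hE1⟩ := stepE hn hSS
  obtain ⟨C₂, hC₂, hT⟩ := timeLoc n
  have hb : ∀ r : ℝ, volume (closedBall (0 : V n) r) ≠ ∞ := fun r => measure_closedBall_lt_top.ne
  refine ⟨volume (closedBall (0 : V n) (2 ^ n)) * volume (closedBall (0 : V n) 1) + C₂ * C₁,
    ENNReal.add_ne_top.2 ⟨ENNReal.mul_ne_top (hb _) (hb _), ENNReal.mul_ne_top hC₂ hC₁⟩,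
    fun E hE hEb τ hτ B hB g hg => ?_⟩
  have hfin : volume E ≠ ∞ := ((measure_mono hEb).trans_lt measure_closedBall_lt_top).ne
  have hgi := hg.integrable hE hfin
  set F : V n → ℝ≥0∞ := fun ξ => ‖H g τ ξ‖ₑ ^ 2 with hF
  have mF : Measurable F := (continuous_H hgi hτ).measurable.enorm.pow_const 2
  set a : ℝ := (n : ℝ) / (n + 1) with ha
  set S : ℕ → Set (V n) := fun k => {ξ | n ≤ k ∧ (2 : ℝ) ^ k ≤ ‖ξ‖ ∧ ‖ξ‖ ≤ 2 * 2 ^ k} with hS
  have mS : ∀ k, MeasurableSet (S k) := fun k =>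
    (MeasurableSet.const _).inter ((measurableSet_le measurable_const measurable_norm).inter
      (measurableSet_le measurable_norm measurable_const))
  have hpt : ∀ ξ, ENNReal.ofReal (wt n ξ ^ 2) * F ξ ≤ (closedBall (0 : V n) (2 ^ n)).indicator F ξ +
      ∑' k : ℕ, (S k).indicator (fun ξ => ENNReal.ofReal ((((2 : ℝ) ^ k) ^ a)⁻¹) * F ξ) ξ := by
    intro ξ
    by_cases hξ : ξ ∈ closedBall (0 : V n) (2 ^ n)
    · rw [indicator_of_mem hξ]
      refine le_trans ?_ le_self_add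
      refine mul_le_of_le_one_left' ?_
      exact ENNReal.ofReal_le_one.2 (pow_le_one₀ (wt_pos ξ).le (wt_le_one ξ))
    · rw [mem_closedBall_zero_iff, not_le] at hξ
      obtain ⟨k, hk1, hk2⟩ := exists_nat_pow_near (x := ‖ξ‖) (y := (2 : ℝ))
        ((one_le_pow₀ one_le_two).trans hξ.le) one_lt_two
      have hnk : n ≤ k := Nat.lt_succ_iff.1 ((pow_lt_pow_iff_right₀ one_lt_two).1 (hξ.trans hk2))
      refine le_trans ?_ le_add_self
      refine le_trans ?_ (ENNReal.le_tsum k)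
      rw [indicator_of_mem (show ξ ∈ S k from ⟨hnk, hk1, by rw [pow_succ] at hk2; linarith⟩)]
      gcongr
      exact wt_sq_le (by positivity) hk1
  refine (lintegral_mono hpt).trans ?_
  rw [lintegral_add_left (mF.indicator measurableSet_closedBall), add_mul,
    lintegral_tsum fun k => ((mF.const_mul _).indicator (mS k)).aemeasurable]
  refine add_le_add ?_ ?_
  · rw [lintegral_indicator measurableSet_closedBall]
    have h1 : ∀ ξ, F ξ ≤ volume (closedBall (0 : V n) 1) * volume E := by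
      intro ξ
      have h2 : ‖H g τ ξ‖ₑ ≤ volume E := by
        unfold H HH
        refine (enorm_integral_le_lintegral_enorm _).trans ?_
        rw [← lintegral_indicator_one hE]
        refine lintegral_mono fun x => ?_
        by_cases hx : x ∈ E
        · rw [indicator_of_mem hx, ← ofReal_norm, norm_mul, norm_ph, mul_one]
          exact ENNReal.ofReal_le_one.2 (hg.2.1 x)
        · simp [hg.2.2 x hx]
      simp only [hF, sq]
      exact mul_le_mul' (h2.trans (measure_mono hEb)) h2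
    refine (lintegral_mono h1).trans (le_of_eq ?_)
    rw [setLIntegral_const]; ring
  · set s : ℕ → Finset ℤ := fun k => Finset.Icc (-⌈(2 : ℝ) ^ k * B⌉) ⌈(2 : ℝ) ^ k * B⌉ with hs
    have hs' : ∀ k, ∀ x ∈ E, ⌊(2 : ℝ) ^ k * τ x⌋ ∈ s k := by
      intro k x hx
      have h2 : |(2 : ℝ) ^ k * τ x| ≤ 2 ^ k * B := by
        rw [abs_mul, abs_of_pos (by positivity)]; gcongr; exact hB x hx
      have h3 := Int.le_ceil ((2 : ℝ) ^ k * B)
      rw [Finset.mem_Icc]
      constructor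
      · rw [Int.le_floor]; push_cast; linarith [(abs_le.1 h2).1]
      · have : (⌊(2 : ℝ) ^ k * τ x⌋ : ℝ) ≤ ⌈(2 : ℝ) ^ k * B⌉ :=
          (Int.floor_le _).trans ((abs_le.1 h2).2.trans h3)
        exact_mod_cast this
    have h4 : ∀ k, ∫⁻ ξ, (S k).indicator
        (fun ξ => ENNReal.ofReal ((((2 : ℝ) ^ k) ^ a)⁻¹) * F ξ) ξ ≤
        C₂ * (ENNReal.ofReal ((((2 : ℝ) ^ k) ^ a)⁻¹) *
          ∑ j ∈ s k, Phi (node E τ k j) τ (3 * 2 ^ k)) := by
      intro k
      by_cases hk : n ≤ k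
      · rw [lintegral_indicator (mS k), lintegral_const_mul' _ _ ENNReal.ofReal_ne_top,
          mul_left_comm]
        gcongr
        have hS' : S k = {ξ : V n | (2 : ℝ) ^ k ≤ ‖ξ‖ ∧ ‖ξ‖ ≤ 2 * 2 ^ k} := by
          ext ξ; simp [hS, hk]
        rw [hS']
        refine hT (2 ^ k) (one_le_pow₀ one_le_two) ?_ E hE hEb τ hτ g hg (s k) (hs' k)
        have : n ≤ 2 ^ k := (Nat.lt_two_pow_self.le).trans (Nat.pow_le_pow_right two_pos hk)
        exact_mod_cast this
      · have hS' : S k = ∅ := by ext ξ; simp [hS, hk]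
        simp [hS']
    refine (ENNReal.tsum_le_tsum h4).trans ?_
    rw [ENNReal.tsum_mul_left, mul_assoc]
    gcongr
    exact ENNReal.tsum_le_of_sum_range_le fun K => hE1 E hE hEb τ hτ K s

/-- **Dual estimate.** -/
theorem dual (hn : 1 ≤ n) (hSS : SS n) : ∃ C : ℝ≥0∞, C ≠ ∞ ∧ ∀ x₀ : V n,
    ∀ E : Set (V n), MeasurableSet E → E ⊆ closedBall x₀ 1 → ∀ τ : V n → ℝ, Measurable τ →
      ∀ B : ℝ, (∀ x ∈ E, |τ x| ≤ B) → ∀ g, Adm E g →
      ∫⁻ ξ, ENNReal.ofReal (wt n ξ ^ 2) * ‖H g τ ξ‖ₑ ^ 2 ≤ C * volume E := by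
  obtain ⟨C, hC, h⟩ := dual_zero hn hSS
  refine ⟨C, hC, fun x₀ E hE hEb τ hτ B hB g hg => ?_⟩
  have hg' : Adm (sE E x₀ 1) (fun y => g (x₀ + (1 : ℝ)⁻¹ • y)) :=
    ⟨hg.1.comp (measurable_aff x₀ 1), fun y => hg.2.1 _, fun y hy => hg.2.2 _ hy⟩
  have h1 := h (sE E x₀ 1) (measurableSet_sE hE _ _) (fun y hy => by
      obtain ⟨x, hxE, -, h3⟩ := mem_sE one_pos hy
      rw [mem_closedBall_zero_iff, h3, one_mul, ← dist_eq_norm]; exact hEb hxE)
    _ (measurable_sT hτ x₀ 0 1) B (fun y hy => by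
      obtain ⟨x, hxE, rfl, -⟩ := mem_sE one_pos hy
      rw [sT, one_pow, one_mul, sub_zero]; exact hB _ hxE) _ hg'
  rw [volume_sE E x₀ one_pos, one_pow, ENNReal.ofReal_one, one_mul] at h1
  refine le_trans (le_of_eq (lintegral_congr fun ξ => ?_)) h1
  have h2 := norm_H_scale g τ x₀ 0 one_pos ξ
  rw [one_smul, one_pow, inv_one, one_mul] at h2
  rw [enorm_sq_eq, enorm_sq_eq, h2, inv_one]

/-- the decaying exponential is a superposition of oscillating ones -/
theorem exists_poisson : ∃ P : ℝ → ℂ, Measurable P ∧ Integrable P ∧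
    ∀ y : ℝ, 0 ≤ y → (Real.exp (-y) : ℂ) = ∫ v, P v * ph (v * y) := by
  set φ : ℝ → ℂ := fun y => Complex.exp (-(|y| : ℝ)) with hφ
  have hc : Continuous φ := by simp only [hφ]; fun_prop
  have h1 : ∀ a : ℂ, a.re = 0 → IntegrableOn (fun y : ℝ => Complex.exp (a * y) * φ y) (Iic 0) ∧
      ∫ y : ℝ in Iic 0, Complex.exp (a * y) * φ y = (1 + a)⁻¹ := by
    intro a ha
    have e : EqOn (fun y : ℝ => Complex.exp ((1 + a) * y)) (fun y => Complex.exp (a * y) * φ y)
        (Iic 0) := fun y hy => by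
      simp only [hφ, ← Complex.exp_add, abs_of_nonpos (mem_Iic.1 hy)]
      congr 1; push_cast; ring
    have hre : 0 < (1 + a).re := by simp [ha]
    refine ⟨(integrableOn_exp_mul_complex_Iic hre 0).congr_fun e measurableSet_Iic, ?_⟩
    rw [← setIntegral_congr_fun measurableSet_Iic e, integral_exp_mul_complex_Iic hre]
    simp
  have h2 : ∀ a : ℂ, a.re = 0 → IntegrableOn (fun y : ℝ => Complex.exp (a * y) * φ y) (Ioi 0) ∧
      ∫ y : ℝ in Ioi 0, Complex.exp (a * y) * φ y = (1 - a)⁻¹ := by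
    intro a ha
    have e : EqOn (fun y : ℝ => Complex.exp ((a - 1) * y)) (fun y => Complex.exp (a * y) * φ y)
        (Ioi 0) := fun y hy => by
      simp only [hφ, ← Complex.exp_add, abs_of_pos (mem_Ioi.1 hy)]
      congr 1; ring
    have hre : (a - 1).re < 0 := by simp [ha]
    refine ⟨(integrableOn_exp_mul_complex_Ioi hre 0).congr_fun e measurableSet_Ioi, ?_⟩
    rw [← setIntegral_congr_fun measurableSet_Ioi e, integral_exp_mul_complex_Ioi hre,
      ← neg_sub a 1, inv_neg]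
    simp [neg_div]
  have hi : Integrable φ := by
    have := (h1 0 rfl).1.union (h2 0 rfl).1
    simpa using this
  have hF : ∀ w : ℝ, 𝓕 φ w = ((2 * (1 + (2 * Real.pi * w) ^ 2)⁻¹ : ℝ) : ℂ) := by
    intro w
    set a : ℂ := -(2 * Real.pi * w) * Complex.I with ha
    have hre : a.re = 0 := by simp [ha]
    have e : 𝓕 φ w = ∫ y : ℝ, Complex.exp (a * y) * φ y := by
      rw [Real.fourier_real_eq_integral_exp_smul]
      congr 1; ext y; rw [smul_eq_mul]; congr 2; simp only [ha]; push_cast; ring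
    rw [e, ← intervalIntegral.integral_Iic_add_Ioi (h1 a hre).1 (h2 a hre).1, (h1 a hre).2,
      (h2 a hre).2]
    have n1 : 1 + a ≠ 0 := fun h => by simpa [hre] using congrArg Complex.re h
    have n2 : 1 - a ≠ 0 := fun h => by simpa [hre] using congrArg Complex.re h
    have n3 : (1 + a) * (1 - a) = 1 + (2 * Real.pi * w) ^ 2 := by
      simp only [ha]
      linear_combination (-(2 * Real.pi * w : ℂ) ^ 2) * Complex.I_sq
    push_cast
    rw [← n3]; field_simp; ring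
  have hF' : 𝓕 φ = fun w : ℝ => ((2 * (1 + (2 * Real.pi * w) ^ 2)⁻¹ : ℝ) : ℂ) := funext hF
  have hFi : Integrable (𝓕 φ) := by
    rw [hF']
    refine Integrable.ofReal (Integrable.const_mul ?_ 2)
    exact integrable_inv_one_add_sq.comp_mul_left' (by positivity : 2 * Real.pi ≠ 0)
  refine ⟨𝓕 φ, by rw [hF']; fun_prop, hFi, fun y hy => ?_⟩
  have h3 := congrFun (hc.fourierInv_fourier_eq hi hFi) y
  rw [Real.fourierInv_eq'] at h3
  have h4 : φ y = (Real.exp (-y) : ℂ) := by simp [hφ, abs_of_nonneg hy]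
  rw [← h4, ← h3]
  congr 1; ext v
  rw [smul_eq_mul, mul_comm, ph]
  congr 2
  simp [mul_comm]

end Crest.Agent.N76.Red
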