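import Crest.Agent.N76.Red.Dual

/-! # Row 76: the weak type maximal estimate (helper14). -/

set_option autoImplicit false

open MeasureTheory Set Metric Filter Topology
open scoped ENNReal RealInnerProductSpace

namespace Crest.Agent.N76.Red

variable {n : ℕ}

/-- the kernel of the regularised evolution -/
noncomputable def Kr (x ξ : V n) (a t : ℝ) : ℂ :=
  Complex.exp (2 * Real.pi * ⟪x, ξ⟫ * Complex.I
    - 4 * Real.pi ^ 2 * ‖ξ‖ ^ 2 * ((a : ℂ) + t * Complex.I))

/-- the regularised evolution -/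
noncomputable def U (h : V n → ℂ) (a t : ℝ) (x : V n) : ℂ := ∫ ξ, Kr x ξ a t * h ξ

theorem Kr_eq (x ξ : V n) (a t : ℝ) : Kr x ξ a t =
    (Real.exp (-(4 * Real.pi ^ 2 * a * ‖ξ‖ ^ 2)) : ℂ) *
      ph (⟪x, ξ⟫ + (-(2 * Real.pi * t)) * ‖ξ‖ ^ 2) := by
  rw [Kr, ph, Complex.ofReal_exp, ← Complex.exp_add]
  congr 1; push_cast; ring

theorem norm_Kr (x ξ : V n) (a t : ℝ) :
    ‖Kr x ξ a t‖ = Real.exp (-(4 * Real.pi ^ 2 * a * ‖ξ‖ ^ 2)) := by
  rw [Kr_eq, norm_mul, norm_ph, mul_one, Complex.norm_real, Real.norm_of_nonneg (Real.exp_pos _).le]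

theorem continuous_Kr : Continuous fun p : (V n × V n) × ℝ × ℝ => Kr p.1.1 p.1.2 p.2.1 p.2.2 := by
  unfold Kr; fun_prop

theorem norm_Kr_le (x ξ : V n) {a a₀ : ℝ} (h : a₀ ≤ a) (t : ℝ) :
    ‖Kr x ξ a t‖ ≤ Real.exp (-(4 * Real.pi ^ 2 * a₀ * ‖ξ‖ ^ 2)) := by
  rw [norm_Kr]; gcongr

theorem integrable_gauss_mul {h : V n → ℂ} (hh : MemLp h 2 volume) {a : ℝ} (ha : 0 < a) :
    Integrable fun ξ => Real.exp (-(4 * Real.pi ^ 2 * a * ‖ξ‖ ^ 2)) * ‖h ξ‖ := by
  have h1 : MemLp (fun ξ : V n => Real.exp (-(4 * Real.pi ^ 2 * a * ‖ξ‖ ^ 2))) 2 volume := by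
    rw [memLp_two_iff_integrable_sq_norm (by fun_prop)]
    have := (GaussianFourier.integrable_cexp_neg_mul_sq_norm_add (V := V n)
      (b := ((8 * Real.pi ^ 2 * a : ℝ) : ℂ)) (by rw [Complex.ofReal_re]; positivity) 0 0).norm
    refine this.congr (Eventually.of_forall fun ξ => ?_)
    simp only [zero_mul, add_zero, Complex.norm_exp, Real.norm_of_nonneg (Real.exp_pos _).le,
      ← Real.exp_nat_mul]
    congr 1
    rw [← Complex.ofReal_pow, ← Complex.ofReal_neg, ← Complex.ofReal_mul, Complex.ofReal_re]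
    push_cast; ring
  exact h1.integrable_mul hh.norm

theorem integrable_Kr_mul {h : V n → ℂ} (hh : MemLp h 2 volume) {a : ℝ} (ha : 0 < a) (t : ℝ)
    (x : V n) : Integrable fun ξ => Kr x ξ a t * h ξ := by
  refine (integrable_gauss_mul hh ha).mono' ?_ (Eventually.of_forall fun ξ => ?_)
  · exact (continuous_Kr.comp (f := fun ξ : V n => ((x, ξ), a, t))
      (by fun_prop)).aestronglyMeasurable.mul hh.1
  · rw [norm_mul, norm_Kr]

theorem continuous_U {h : V n → ℂ} (hh : MemLp h 2 volume) (x : V n) :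
    Continuous fun p : ℝ × ℝ => U h (Real.exp p.1) p.2 x := by
  refine continuous_iff_continuousAt.2 fun p₀ => ?_
  refine continuousAt_of_dominated (bound := fun ξ =>
    Real.exp (-(4 * Real.pi ^ 2 * Real.exp (p₀.1 - 1) * ‖ξ‖ ^ 2)) * ‖h ξ‖)
    (Eventually.of_forall fun p => (integrable_Kr_mul hh (Real.exp_pos _) _ _).1) ?_
    (integrable_gauss_mul hh (Real.exp_pos _)) (Eventually.of_forall fun ξ => ?_)
  · have : ∀ᶠ p : ℝ × ℝ in 𝓝 p₀, p₀.1 - 1 < p.1 :=
      continuousAt_fst.eventually (lt_mem_nhds (by linarith))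
    filter_upwards [this] with p hp
    refine Eventually.of_forall fun ξ => ?_
    rw [norm_mul]
    gcongr
    exact norm_Kr_le _ _ (Real.exp_le_exp.2 hp.le) _
  · exact ((continuous_Kr.comp (f := fun p : ℝ × ℝ => ((x, ξ), Real.exp p.1, p.2))
      (by fun_prop)).mul continuous_const).continuousAt

theorem measurable_U {h : V n → ℂ} (hh : Measurable h) {a t : V n → ℝ} (ha : Measurable a)
    (ht : Measurable t) : Measurable fun x => U h (a x) (t x) x := by
  have : Measurable fun q : V n × V n => Kr q.1 q.2 (a q.1) (t q.1) * h q.2 :=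
    (continuous_Kr.measurable.comp (f := fun q : V n × V n => ((q.1, q.2), a q.1, t q.1))
      (by fun_prop)).mul (hh.comp measurable_snd)
  exact (this.stronglyMeasurable.integral_prod_right' (ν := volume)).measurable

theorem memLp_wt_mul {u : V n → ℂ} (hu : MemLp u 2 volume) :
    MemLp (fun ξ => (wt n ξ : ℂ) * u ξ) 2 volume := by
  refine hu.of_le ((Complex.continuous_ofReal.comp continuous_wt).aestronglyMeasurable.mul hu.1)
    (Eventually.of_forall fun ξ => ?_)
  rw [norm_mul, Complex.norm_real, Real.norm_of_nonneg (wt_pos ξ).le]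
  exact mul_le_of_le_one_left (norm_nonneg _) (wt_le_one ξ)

theorem weighted_cs {P f : ℝ → ℂ} (hP : Measurable P) (hf : Measurable f) :
    ‖∫ v, P v * f v‖ₑ ^ 2 ≤ (∫⁻ v, ‖P v‖ₑ) * ∫⁻ v, ‖P v‖ₑ * ‖f v‖ₑ ^ 2 := by
  have h := lintegral_cs (volume.withDensity fun v => ‖P v‖ₑ) (f := fun _ => 1)
    (g := fun v => ‖f v‖ₑ) aemeasurable_const hf.enorm.aemeasurable
  simp only [one_mul, one_pow] at h
  rw [lintegral_withDensity_eq_lintegral_mul _ hP.enorm hf.enorm,
    lintegral_withDensity_eq_lintegral_mul _ hP.enorm measurable_const,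
    lintegral_withDensity_eq_lintegral_mul _ hP.enorm (hf.enorm.pow_const 2)] at h
  simp only [Pi.mul_apply, mul_one] at h
  refine le_trans (pow_le_pow_left' (enorm_integral_le_lintegral_enorm _) 2) ?_
  simpa only [enorm_mul] using h

/-- dual estimate for the regularised kernel -/
theorem dual_Kr (hn : 1 ≤ n) (hSS : SS n) : ∃ C : ℝ≥0∞, C ≠ ∞ ∧ ∀ x₀ : V n,
    ∀ E : Set (V n), MeasurableSet E → E ⊆ closedBall x₀ 1 → ∀ a t : V n → ℝ, Measurable a →
      Measurable t → ∀ B : ℝ, (∀ x, 0 ≤ a x ∧ a x ≤ B ∧ |t x| ≤ B) → ∀ g, Adm E g →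
      ∫⁻ ξ, (ENNReal.ofReal (wt n ξ) * ‖∫ x, g x * Kr x ξ (a x) (t x)‖ₑ) ^ 2 ≤ C * volume E := by
  obtain ⟨C, hC, hd⟩ := dual hn hSS
  obtain ⟨P, mP, iP, hP⟩ := exists_poisson
  have hI : ∫⁻ v, ‖P v‖ₑ ≠ ∞ := iP.2.ne
  refine ⟨(∫⁻ v, ‖P v‖ₑ) * ((∫⁻ v, ‖P v‖ₑ) * C), by finiteness,
    fun x₀ E hE hEb a t ha ht B hB g hg => ?_⟩
  have hfin : volume E ≠ ∞ := ((measure_mono hEb).trans_lt measure_closedBall_lt_top).ne
  have hgi := hg.integrable hE hfin
  set τ : ℝ → V n → ℝ := fun v x => -(2 * Real.pi * t x) + 4 * Real.pi ^ 2 * a x * v with hτ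
  have mτ : ∀ v, Measurable (τ v) := fun v => by simp only [hτ]; fun_prop
  have cH : Continuous fun q : V n × ℝ => H g (τ q.2) q.1 := by
    unfold H HH
    refine continuous_of_dominated (bound := fun x => ‖g x‖) (fun p => ?_) (fun p => ?_)
      hgi.norm ?_
    · exact (integrable_mul_ph hgi (measurable_phase (mτ _) _ _)).1
    · exact Eventually.of_forall fun x => by rw [norm_mul, norm_ph, mul_one]
    · refine Eventually.of_forall fun x => ?_
      exact continuous_const.mul (continuous_ph.comp (by simp only [hτ]; fun_prop))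
  have h1 : ∀ ξ, ∫ x, g x * Kr x ξ (a x) (t x) = ∫ v, P v * H g (τ v) ξ := by
    intro ξ
    unfold H HH
    simp_rw [← integral_const_mul]
    rw [integral_integral_swap]
    · congr 1; ext x
      rw [Kr_eq, hP _ (by have := (hB x).1; positivity), ← integral_mul_const,
        ← integral_const_mul]
      congr 1; ext v
      rw [mul_assoc, ← ph_add, mul_left_comm]
      congr 3; simp only [hτ]; ring
    · have h1 : Integrable (fun p : ℝ × V n => P p.1 * g p.2) (volume.prod volume) :=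
        iP.mul_prod hgi
      have h2 : Measurable fun p : ℝ × V n => ph (⟪p.2, ξ⟫ + τ p.1 p.2 * ‖ξ‖ ^ 2) :=
        measurable_ph.comp (by simp only [hτ]; fun_prop)
      refine h1.norm.mono' ((h1.1.mul h2.aestronglyMeasurable).congr
        (Eventually.of_forall fun p => ?_)) (Eventually.of_forall fun p => ?_)
      · simp [Function.uncurry, mul_assoc]
      · simp [Function.uncurry, norm_ph]
  have m1 : Measurable fun q : V n × ℝ => ‖P q.2‖ₑ *
      (ENNReal.ofReal (wt n q.1 ^ 2) * ‖H g (τ q.2) q.1‖ₑ ^ 2) :=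
    (mP.comp measurable_snd).enorm.mul
      ((((continuous_wt.measurable.comp measurable_fst).pow_const 2).ennreal_ofReal).mul
        (cH.measurable.enorm.pow_const 2))
  calc _ ≤ ∫⁻ ξ, (∫⁻ v, ‖P v‖ₑ) * ∫⁻ v, ‖P v‖ₑ *
        (ENNReal.ofReal (wt n ξ ^ 2) * ‖H g (τ v) ξ‖ₑ ^ 2) := by
        refine lintegral_mono fun ξ => ?_
        simp only [h1, mul_pow, mul_left_comm ‖P _‖ₑ]
        rw [lintegral_const_mul' _ _ ENNReal.ofReal_ne_top, mul_left_comm,
          ENNReal.ofReal_pow (wt_pos ξ).le]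
        gcongr
        exact weighted_cs mP (cH.comp (f := fun v : ℝ => (ξ, v)) (by fun_prop)).measurable
    _ = (∫⁻ v, ‖P v‖ₑ) * ∫⁻ v, ‖P v‖ₑ *
        ∫⁻ ξ, ENNReal.ofReal (wt n ξ ^ 2) * ‖H g (τ v) ξ‖ₑ ^ 2 := by
        rw [lintegral_const_mul' _ _ hI, lintegral_lintegral_swap m1.aemeasurable]
        congr 1
        exact lintegral_congr fun v => lintegral_const_mul' _ _ enorm_ne_top
    _ ≤ (∫⁻ v, ‖P v‖ₑ) * ∫⁻ v, ‖P v‖ₑ * (C * volume E) := by
        gcongr with v
        refine hd x₀ E hE hEb (τ v) (mτ v) (2 * Real.pi * B + 4 * Real.pi ^ 2 * B * |v|)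
          (fun x _ => ?_) g hg
        obtain ⟨h1, h2, h3⟩ := hB x
        refine (abs_add_le _ _).trans ?_
        rw [abs_neg, abs_mul _ (t x), abs_mul _ v, abs_mul _ (a x), abs_of_nonneg h1,
          abs_of_pos (by positivity : 0 < 2 * Real.pi),
          abs_of_pos (by positivity : 0 < 4 * Real.pi ^ 2)]
        gcongr
    _ = _ := by rw [lintegral_mul_const _ mP.enorm]; ring

/-- linearised maximal estimate -/
theorem lin_max (hn : 1 ≤ n) (hSS : SS n) : ∃ C : ℝ≥0∞, C ≠ ∞ ∧ ∀ x₀ : V n,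
    ∀ E : Set (V n), MeasurableSet E → E ⊆ closedBall x₀ 1 → ∀ a t : V n → ℝ, Measurable a →
      Measurable t → ∀ a₀ B : ℝ, 0 < a₀ → (∀ x, a₀ ≤ a x ∧ a x ≤ B ∧ |t x| ≤ B) →
      ∀ u : V n → ℂ, Measurable u → MemLp u 2 volume →
      (∫⁻ x in E, ‖U (fun ξ => (wt n ξ : ℂ) * u ξ) (a x) (t x) x‖ₑ) ^ 2 ≤
        (∫⁻ ξ, ‖u ξ‖ₑ ^ 2) * (C * volume E) := by
  obtain ⟨C, hC, hd⟩ := dual_Kr hn hSS
  refine ⟨C, hC, fun x₀ E hE hEb a t ha ht a₀ B ha₀ hB u mu hu => ?_⟩
  have hfin : volume E ≠ ∞ := ((measure_mono hEb).trans_lt measure_closedBall_lt_top).ne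
  set h : V n → ℂ := fun ξ => (wt n ξ : ℂ) * u ξ with hh
  have mh : Measurable h := (Complex.continuous_ofReal.comp continuous_wt).measurable.mul mu
  have hh2 : MemLp h 2 volume := memLp_wt_mul hu
  set f : V n → ℂ := fun x => U h (a x) (t x) x with hf
  have mf : Measurable f := measurable_U mh ha ht
  set g : V n → ℂ := E.indicator fun x => (starRingEnd ℂ) (f x) / ‖f x‖ with hg
  have hgA : Adm E g := by
    refine ⟨Measurable.indicator ((Complex.continuous_conj.measurable.comp mf).div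
      (Complex.measurable_ofReal.comp mf.norm)) hE, fun x => ?_,
      fun x hx => indicator_of_notMem hx _⟩
    by_cases hx : x ∈ E
    · simp only [hg, indicator_of_mem hx, norm_div, Complex.norm_conj, Complex.norm_real,
        norm_norm]
      exact div_self_le_one _
    · simp [hg, hx]
  have hgi := hgA.integrable hE hfin
  have mK : Measurable fun q : V n × V n => Kr q.1 q.2 (a q.1) (t q.1) :=
    continuous_Kr.measurable.comp (f := fun q : V n × V n => ((q.1, q.2), a q.1, t q.1))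
      (by fun_prop)
  have hprod : Integrable (fun q : V n × V n => g q.1 * (Kr q.1 q.2 (a q.1) (t q.1) * h q.2))
      (volume.prod volume) := by
    refine (hgi.norm.mul_prod (integrable_gauss_mul hh2 ha₀)).mono'
      ((hgA.1.comp measurable_fst).mul (mK.mul (mh.comp measurable_snd))).aestronglyMeasurable
      (Eventually.of_forall fun q => ?_)
    rw [norm_mul, norm_mul]
    gcongr
    exact norm_Kr_le _ _ (hB _).1 _
  have e1 : ∀ x, g x * f x = ((E.indicator (fun x => ‖f x‖) x : ℝ) : ℂ) := by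
    intro x
    by_cases hx : x ∈ E
    · simp only [hg, indicator_of_mem hx]
      rcases eq_or_ne (f x) 0 with h0 | h0
      · simp [h0]
      · have : (‖f x‖ : ℂ) ≠ 0 := by simpa using h0
        rw [div_mul_eq_mul_div, Complex.conj_mul', div_eq_iff this, sq]
    · simp [hg, hx]
  have e0 : ∀ x, g x * f x = ∫ ξ, g x * (Kr x ξ (a x) (t x) * h ξ) := fun x => by
    rw [integral_const_mul]; rfl
  have i1 : Integrable fun x => g x * f x := by
    simp_rw [e0]; exact hprod.integral_prod_left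
  have i2 : Integrable (E.indicator fun x => ‖f x‖) := by
    refine i1.norm.congr (Eventually.of_forall fun x => ?_)
    simp only [e1, Complex.norm_real]
    exact Real.norm_of_nonneg (indicator_nonneg (fun _ _ => norm_nonneg _) _)
  have e2 : ∫⁻ x in E, ‖f x‖ₑ = ‖∫ x, g x * f x‖ₑ := by
    have h0 : ∀ x, 0 ≤ E.indicator (fun x => ‖f x‖) x :=
      indicator_nonneg fun _ _ => norm_nonneg _
    simp_rw [e1]
    rw [integral_complex_ofReal, ← ofReal_norm, Complex.norm_real,
      Real.norm_of_nonneg (integral_nonneg h0),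
      ofReal_integral_eq_lintegral_ofReal i2 (Eventually.of_forall h0), ← lintegral_indicator hE]
    refine lintegral_congr fun x => ?_
    by_cases hx : x ∈ E <;> simp [hx]
  have e3 : ∫ x, g x * f x = ∫ ξ, h ξ * ∫ x, g x * Kr x ξ (a x) (t x) := by
    simp_rw [e0]
    rw [integral_integral_swap hprod]
    congr 1; ext ξ
    rw [← integral_const_mul]
    congr 1; ext x; ring
  have mG : Measurable fun ξ => ∫ x, g x * Kr x ξ (a x) (t x) :=
    (((hgA.1.comp measurable_fst).mul mK).stronglyMeasurable.integral_prod_left'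
      (μ := volume)).measurable
  rw [e2, e3]
  refine le_trans (pow_le_pow_left' (enorm_integral_le_lintegral_enorm _) 2) ?_
  have e4 : ∀ ξ, ‖h ξ * ∫ x, g x * Kr x ξ (a x) (t x)‖ₑ =
      ‖u ξ‖ₑ * (ENNReal.ofReal (wt n ξ) * ‖∫ x, g x * Kr x ξ (a x) (t x)‖ₑ) := by
    intro ξ
    have : ‖(wt n ξ : ℂ)‖ₑ = ENNReal.ofReal (wt n ξ) := by
      rw [← ofReal_norm, Complex.norm_real, Real.norm_of_nonneg (wt_pos ξ).le]
    simp only [hh, enorm_mul, this]; ring
  simp_rw [e4]
  refine (lintegral_cs volume mu.enorm.aemeasurable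
    (continuous_wt.measurable.ennreal_ofReal.mul mG.enorm).aemeasurable).trans ?_
  gcongr
  exact hd x₀ E hE hEb a t ha ht B (fun x => ⟨ha₀.le.trans (hB x).1, (hB x).2⟩) g hgA

/-- **Weak type maximal estimate.** -/
theorem weak_max (hn : 1 ≤ n) (hSS : SS n) : ∃ C : ℝ≥0∞, C ≠ ∞ ∧ ∀ x₀ : V n,
    ∀ u : V n → ℂ, Measurable u → MemLp u 2 volume → ∀ lam : ℝ, 0 < lam →
      ENNReal.ofReal lam ^ 2 * volume {x | x ∈ closedBall x₀ 1 ∧ ∃ a t : ℝ, 0 < a ∧
        lam < ‖U (fun ξ => (wt n ξ : ℂ) * u ξ) a t x‖} ≤ C * ∫⁻ ξ, ‖u ξ‖ₑ ^ 2 := by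
  classical
  obtain ⟨C, hC, hl⟩ := lin_max hn hSS
  refine ⟨C, hC, fun x₀ u mu hu lam hlam => ?_⟩
  set h : V n → ℂ := fun ξ => (wt n ξ : ℂ) * u ξ with hh
  have mh : Measurable h := (Complex.continuous_ofReal.comp continuous_wt).measurable.mul mu
  have hh2 : MemLp h 2 volume := memLp_wt_mul hu
  set d : ℕ → ℝ × ℝ := TopologicalSpace.denseSeq (ℝ × ℝ) with hd
  set Q : V n → ℕ → Prop := fun x j => lam < ‖U h (Real.exp (d j).1) (d j).2 x‖ with hQ
  have mQ : ∀ j, MeasurableSet {x | Q x j} := fun j =>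
    measurableSet_lt measurable_const (measurable_U mh measurable_const measurable_const).norm
  set E : ℕ → Set (V n) := fun J => closedBall x₀ 1 ∩ ⋃ j ∈ Finset.range (J + 1), {x | Q x j}
    with hE
  have mE : ∀ J, MeasurableSet (E J) := fun J =>
    measurableSet_closedBall.inter (Finset.measurableSet_biUnion _ fun j _ => mQ j)
  have hmono : Monotone E := fun J J' hJ => inter_subset_inter_right _
    (biUnion_subset_biUnion_left (by
      exact_mod_cast Finset.range_subset_range.2 (Nat.succ_le_succ hJ)))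
  have hsub : {x | x ∈ closedBall x₀ 1 ∧ ∃ a t : ℝ, 0 < a ∧ lam < ‖U h a t x‖} ⊆ ⋃ J, E J := by
    rintro x ⟨hx, a, t, ha, hlt⟩
    have ho : IsOpen {p : ℝ × ℝ | lam < ‖U h (Real.exp p.1) p.2 x‖} :=
      isOpen_lt continuous_const (continuous_U hh2 x).norm
    obtain ⟨j, hj⟩ := (TopologicalSpace.denseRange_denseSeq (ℝ × ℝ)).exists_mem_open ho
      ⟨(Real.log a, t), by simpa [Real.exp_log ha] using hlt⟩
    exact mem_iUnion.2 ⟨j, hx, mem_iUnion₂.2 ⟨j, Finset.self_mem_range_succ j, hj⟩⟩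
  refine (mul_le_mul_right (measure_mono hsub) _).trans ?_
  rw [hmono.measure_iUnion, ENNReal.mul_iSup]
  refine iSup_le fun J => ?_
  set B : ℝ := ∑ j ∈ Finset.range (J + 1), (|(d j).1| + |(d j).2|) with hB
  have hBj : ∀ j ≤ J, |(d j).1| + |(d j).2| ≤ B := fun j hj =>
    Finset.single_le_sum (f := fun j => |(d j).1| + |(d j).2|) (fun i _ => by positivity)
      (Finset.mem_range.2 (Nat.lt_succ_of_le hj))
  set jx : V n → ℕ := fun x => Nat.findGreatest (Q x) J with hjx
  have mj : Measurable jx := measurable_findGreatest fun j _ => mQ j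
  have key := hl x₀ (E J) (mE J) inter_subset_left (fun x => Real.exp (d (jx x)).1)
    (fun x => (d (jx x)).2)
    ((measurable_of_countable fun j : ℕ => Real.exp (d j).1).comp mj)
    ((measurable_of_countable fun j : ℕ => (d j).2).comp mj) (Real.exp (-B)) (Real.exp B)
    (Real.exp_pos _) (fun x => by
      have h1 := hBj (jx x) (Nat.findGreatest_le J)
      have h2 := abs_nonneg (d (jx x)).1
      have h3 := abs_nonneg (d (jx x)).2
      have h4 := neg_abs_le (d (jx x)).1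
      have h5 := le_abs_self (d (jx x)).1
      have h6 := Real.add_one_le_exp B
      exact ⟨Real.exp_le_exp.2 (by linarith), Real.exp_le_exp.2 (by linarith), by linarith⟩)
    u mu hu
  have low : ENNReal.ofReal lam * volume (E J) ≤
      ∫⁻ x in E J, ‖U h (Real.exp (d (jx x)).1) (d (jx x)).2 x‖ₑ := by
    rw [← setLIntegral_const]
    refine setLIntegral_mono' (mE J) fun x hx => ?_
    obtain ⟨j, hj, hq⟩ := mem_iUnion₂.1 hx.2
    have : Q x (jx x) := Nat.findGreatest_spec (Nat.lt_succ_iff.1 (Finset.mem_range.1 hj)) hq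
    rw [← ofReal_norm]
    exact ENNReal.ofReal_le_ofReal this.le
  have hfin : volume (E J) ≠ ∞ :=
    ((measure_mono inter_subset_left).trans_lt measure_closedBall_lt_top).ne
  rcases eq_or_ne (volume (E J)) 0 with h0 | h0
  · rw [h0, mul_zero]; exact zero_le
  · refine (ENNReal.mul_le_mul_iff_left h0 hfin).1 ?_
    calc _ = (ENNReal.ofReal lam * volume (E J)) ^ 2 := by ring
      _ ≤ _ := (pow_le_pow_left' low 2).trans key
      _ = _ := by ring

end Crest.Agent.N76.Red
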