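import Crest.Agent.N76.Red.Basic

/-! # Row 76: a band limited majorant and exact orthogonality (helper14). -/

set_option autoImplicit false
set_option linter.unusedSectionVars false

open MeasureTheory Set Metric
open scoped ENNReal RealInnerProductSpace FourierTransform SchwartzMap ContDiff

namespace Crest.Agent.N76.Red

variable {n : ℕ}

section Maj

variable (W : Type*) [NormedAddCommGroup W] [InnerProductSpace ℝ W]
  [FiniteDimensional ℝ W] [MeasurableSpace W] [BorelSpace W]

/-- a nonnegative majorant of the unit ball whose Fourier transform lives in the unit ball -/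
structure IsMaj (ψ : W → ℝ) : Prop where
  cont : Continuous ψ
  int : Integrable ψ
  nonneg : ∀ u, 0 ≤ ψ u
  one_le : ∀ u, ‖u‖ ≤ 1 → 1 ≤ ψ u
  orth : ∀ w : W, 1 ≤ ‖w‖ → ∫ u, (ψ u : ℂ) * ph ⟪w, u⟫ = 0

variable {W} in
theorem fourier_eq_ph (f : W → ℂ) (u : W) : 𝓕 f u = ∫ v, ph (-⟪v, u⟫) * f v := by
  rw [Real.fourier_eq']
  congr 1; ext v
  rw [smul_eq_mul]; congr 1
  unfold ph; congr 1; push_cast; ring

theorem exists_isMaj : ∃ ψ : W → ℝ, IsMaj W ψ := by
  let β : ContDiffBump (0 : W) := ⟨1 / 12, 1 / 6, by norm_num, by norm_num⟩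
  let f : W → W → ℂ := fun w x => ((2 * β.normed volume (x - w) : ℝ) : ℂ)
  have hsm : ∀ w, ContDiff ℝ ∞ (f w) := fun w =>
    Complex.ofRealCLM.contDiff.comp
      (contDiff_const.mul (β.contDiff_normed.comp (contDiff_id.sub contDiff_const)))
  have hzero : ∀ w x, 1 / 6 ≤ ‖x - w‖ → f w x = 0 := by
    intro w x hx
    have : β.normed volume (x - w) = 0 := by
      by_contra h
      have h' : x - w ∈ Function.support (β.normed volume) := h
      rw [β.support_normed_eq, mem_ball_zero_iff] at h'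
      exact absurd hx (not_le.2 h')
    simp [f, this]
  have hcs : ∀ w, HasCompactSupport (f w) := fun w =>
    HasCompactSupport.intro (isCompact_closedBall w (1 / 6)) fun x hx =>
      hzero w x (by rw [mem_closedBall, dist_eq_norm, not_le] at hx; exact hx.le)
  let F : W → 𝓢(W, ℂ) := fun w => (hcs w).toSchwartzMap (hsm w)
  have hF : ∀ w x, F w x = f w x := fun _ _ => rfl
  have hFF : ∀ w u, (𝓕 (F w) : 𝓢(W, ℂ)) u = ph (-⟪w, u⟫) * (𝓕 (F 0) : 𝓢(W, ℂ)) u := by
    intro w u
    rw [SchwartzMap.fourier_coe, SchwartzMap.fourier_coe, fourier_eq_ph, fourier_eq_ph,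
      ← integral_const_mul, ← integral_add_right_eq_self _ w]
    congr 1; ext v
    simp only [hF, f, add_sub_cancel_right, sub_zero]
    rw [← mul_assoc, ← ph_add, inner_add_left]; congr 2; ring
  set b : 𝓢(W, ℂ) := 𝓕 (F 0) with hb
  refine ⟨fun u => ‖b u‖ ^ 2, by fun_prop, ?_, fun u => sq_nonneg _, fun u hu => ?_,
    fun w hw => ?_⟩
  · exact (b.memLp 2 volume).integrable_norm_pow (by norm_num)
  · have hint : Integrable (fun v : W => ph (-⟪v, u⟫) * F 0 v) := by
      refine (F 0).integrable.norm.mono' ?_ (Filter.Eventually.of_forall fun v => ?_)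
      · exact ((continuous_ph.comp (by fun_prop)).mul (F 0).continuous).aestronglyMeasurable
      · rw [norm_mul, norm_ph, one_mul]
    have h1 : 1 ≤ (b u).re := by
      rw [hb, SchwartzMap.fourier_coe, fourier_eq_ph]
      have h2 := integral_re (𝕜 := ℂ) hint
      simp only [RCLike.re_to_complex] at h2
      rw [← h2, ← β.integral_normed (μ := volume)]
      refine integral_mono β.integrable_normed hint.re fun v => ?_
      simp only [hF, f, sub_zero, Complex.mul_re, Complex.ofReal_re, Complex.ofReal_im, mul_zero]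
      by_cases hv : ‖v‖ < 1 / 6
      · have h3 : |(-⟪v, u⟫ : ℝ)| ≤ 1 / 6 := by
          rw [abs_neg]
          refine (abs_real_inner_le_norm v u).trans ?_
          nlinarith [norm_nonneg v, norm_nonneg u]
        have h4 := half_le_re_ph h3
        have h5 := β.nonneg_normed (μ := volume) v
        nlinarith
      · have : β.normed volume v = 0 := by
          by_contra h
          have h' : v ∈ Function.support (β.normed volume) := h
          rw [β.support_normed_eq, mem_ball_zero_iff] at h'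
          exact hv h'
        simp [this]
    have h6 : 1 ≤ ‖b u‖ := h1.trans (Complex.re_le_norm _)
    nlinarith
  · have h1 := SchwartzMap.integral_inner_fourier_fourier (F w) (F 0)
    have h2 : ∀ x, inner ℂ (F w x) (F 0 x) = 0 := by
      intro x
      by_cases hx : 1 / 6 ≤ ‖x - w‖
      · rw [hF, hzero w x hx, inner_zero_left]
      · have : 1 / 6 ≤ ‖x - 0‖ := by
          rw [sub_zero]
          have h3 : ‖w‖ ≤ ‖x‖ + ‖x - w‖ := by
            calc ‖w‖ = ‖x - (x - w)‖ := by congr 1; abel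
              _ ≤ _ := norm_sub_le _ _
          linarith [not_le.1 hx]
        rw [hF 0, hzero 0 x this, inner_zero_right]
    simp_rw [h2, integral_zero] at h1
    rw [← h1]
    congr 1; ext u
    rw [hFF w u, ← hb, RCLike.inner_apply, map_mul, conj_ph, neg_neg, mul_left_comm,
      Complex.mul_conj, Complex.normSq_eq_norm_sq, mul_comm]

end Maj

section Orth

variable {W : Type*} [NormedAddCommGroup W] [InnerProductSpace ℝ W]
  [FiniteDimensional ℝ W] [MeasurableSpace W] [BorelSpace W]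

/-- the transform of `G` along the position map `θ` -/
noncomputable def tr (G : V n → ℂ) (θ : V n → W) (u : W) : ℂ := ∫ x, G x * ph ⟪θ x, u⟫

theorem continuous_tr {G : V n → ℂ} (hG : Integrable G) {θ : V n → W} (hθ : Measurable θ) :
    Continuous (tr G θ) := by
  unfold tr
  refine continuous_of_dominated (bound := fun x => ‖G x‖) (fun p => ?_) (fun p => ?_) hG.norm ?_
  · exact (integrable_mul_ph hG (by fun_prop)).1
  · exact Filter.Eventually.of_forall fun x => by rw [norm_mul, norm_ph, mul_one]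
  · refine Filter.Eventually.of_forall fun x => ?_
    exact continuous_const.mul (continuous_ph.comp (by fun_prop))

theorem norm_tr_le (G : V n → ℂ) (θ : V n → W) (u : W) : ‖tr G θ u‖ ≤ ∫ x, ‖G x‖ := by
  refine (norm_integral_le_integral_norm _).trans (le_of_eq ?_)
  congr 1; ext x; rw [norm_mul, norm_ph, mul_one]

theorem integrable_maj_tr {ψ : W → ℝ} (hψ : IsMaj W ψ) {G G' : V n → ℂ} (hG : Integrable G)
    (hG' : Integrable G') {θ : V n → W} (hθ : Measurable θ) :
    Integrable (fun u => (ψ u : ℂ) * (tr G θ u * (starRingEnd ℂ) (tr G' θ u))) := by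
  refine (hψ.int.mul_const ((∫ x, ‖G x‖) * ∫ x, ‖G' x‖)).mono' ?_
    (Filter.Eventually.of_forall fun u => ?_)
  · refine Continuous.aestronglyMeasurable ?_
    exact (Complex.continuous_ofReal.comp hψ.cont).mul ((continuous_tr hG hθ).mul
      (Complex.continuous_conj.comp (continuous_tr hG' hθ)))
  · rw [norm_mul, norm_mul, Complex.norm_real, Real.norm_of_nonneg (hψ.nonneg u),
      Complex.norm_conj]
    refine mul_le_mul_of_nonneg_left ?_ (hψ.nonneg u)
    exact mul_le_mul (norm_tr_le _ _ _) (norm_tr_le _ _ _) (norm_nonneg _)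
      (integral_nonneg fun _ => norm_nonneg _)

theorem orth_pair {ψ : W → ℝ} (hψ : IsMaj W ψ) {G G' : V n → ℂ} (hG : Integrable G)
    (hG' : Integrable G') {θ : V n → W} (hθ : Measurable θ)
    (hsep : ∀ x y, G x ≠ 0 → G' y ≠ 0 → 1 ≤ ‖θ x - θ y‖) :
    ∫ u, (ψ u : ℂ) * (tr G θ u * (starRingEnd ℂ) (tr G' θ u)) = 0 := by
  have h1 : ∀ u, (ψ u : ℂ) * (tr G θ u * (starRingEnd ℂ) (tr G' θ u)) =
      ∫ p : V n × V n, (G p.1 * (starRingEnd ℂ) (G' p.2)) *
        ((ψ u : ℂ) * ph ⟪θ p.1 - θ p.2, u⟫) := by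
    intro u
    unfold tr
    rw [← integral_conj, ← integral_prod_mul, ← integral_const_mul]
    congr 1; ext p
    rw [map_mul, conj_ph, inner_sub_left, sub_eq_add_neg, ph_add]; ring
  simp_rw [h1]
  rw [integral_integral_swap]
  · refine integral_eq_zero_of_ae (Filter.Eventually.of_forall fun p => ?_)
    simp only [Pi.zero_apply]
    rw [integral_const_mul]
    by_cases h : G p.1 = 0
    · simp [h]
    by_cases h' : G' p.2 = 0
    · simp [h']
    rw [hψ.orth _ (hsep _ _ h h'), mul_zero]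
  · have hb : Integrable (fun q : W × (V n × V n) => ψ q.1 * (‖G q.2.1‖ * ‖G' q.2.2‖))
        (volume.prod volume) := hψ.int.mul_prod (hG.norm.mul_prod hG'.norm)
    refine hb.mono' ?_ (Filter.Eventually.of_forall fun q => ?_)
    · have m1 : AEStronglyMeasurable (fun q : W × (V n × V n) =>
          G q.2.1 * (starRingEnd ℂ) (G' q.2.2)) (volume.prod volume) :=
        AEStronglyMeasurable.comp_snd
          (hG.1.comp_fst.mul (Complex.continuous_conj.comp_aestronglyMeasurable hG'.1.comp_snd))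
      refine m1.mul (Measurable.aestronglyMeasurable ?_)
      exact (Complex.measurable_ofReal.comp (hψ.cont.measurable.comp measurable_fst)).mul
        (measurable_ph.comp (by fun_prop))
    · simp only [Function.uncurry, norm_mul, norm_ph, Complex.norm_conj, Complex.norm_real,
        Real.norm_of_nonneg (hψ.nonneg _)]
      exact le_of_eq (by ring)

/-- exact orthogonality against the majorant -/
theorem orth_sum {ι : Type*} {ψ : W → ℝ} (hψ : IsMaj W ψ) (s : Finset ι) (G : ι → V n → ℂ)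
    (hG : ∀ i ∈ s, Integrable (G i)) {θ : V n → W} (hθ : Measurable θ)
    (hsep : ∀ i ∈ s, ∀ j ∈ s, i ≠ j → ∀ x y, G i x ≠ 0 → G j y ≠ 0 → 1 ≤ ‖θ x - θ y‖) :
    ∫⁻ u, ENNReal.ofReal (ψ u) * ‖∑ i ∈ s, tr (G i) θ u‖ₑ ^ 2 =
      ∑ i ∈ s, ∫⁻ u, ENNReal.ofReal (ψ u) * ‖tr (G i) θ u‖ₑ ^ 2 := by
  classical
  have key : ∀ a : W → ℂ, Integrable (fun u => (ψ u : ℂ) * (a u * (starRingEnd ℂ) (a u))) →
      ∫⁻ u, ENNReal.ofReal (ψ u) * ‖a u‖ₑ ^ 2 =
        ENNReal.ofReal (∫ u, (ψ u : ℂ) * (a u * (starRingEnd ℂ) (a u))).re := by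
    intro a ha
    have h0 : ∀ u, ((ψ u : ℂ) * (a u * (starRingEnd ℂ) (a u))).re = ψ u * ‖a u‖ ^ 2 := by
      intro u
      rw [Complex.mul_conj, Complex.normSq_eq_norm_sq, ← Complex.ofReal_mul, Complex.ofReal_re]
    have h2 := integral_re (𝕜 := ℂ) ha
    have h3 := ha.re
    simp only [RCLike.re_to_complex, h0] at h2 h3
    rw [← h2, ofReal_integral_eq_lintegral_ofReal h3
      (Filter.Eventually.of_forall fun u => mul_nonneg (hψ.nonneg u) (sq_nonneg _))]
    refine lintegral_congr fun u => ?_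
    rw [enorm_sq_eq, ENNReal.ofReal_mul (hψ.nonneg u)]
  have hexp : ∀ u, (ψ u : ℂ) * ((∑ i ∈ s, tr (G i) θ u) *
      (starRingEnd ℂ) (∑ i ∈ s, tr (G i) θ u)) =
      ∑ i ∈ s, ∑ j ∈ s, (ψ u : ℂ) * (tr (G i) θ u * (starRingEnd ℂ) (tr (G j) θ u)) := by
    intro u
    rw [map_sum, Finset.sum_mul_sum, Finset.mul_sum]
    exact Finset.sum_congr rfl fun i _ => Finset.mul_sum _ _ _
  have hij : ∀ i ∈ s, ∀ j ∈ s, Integrable
      (fun u => (ψ u : ℂ) * (tr (G i) θ u * (starRingEnd ℂ) (tr (G j) θ u))) :=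
    fun i hi j hj => integrable_maj_tr hψ (hG i hi) (hG j hj) hθ
  have hall : Integrable (fun u => (ψ u : ℂ) * ((∑ i ∈ s, tr (G i) θ u) *
      (starRingEnd ℂ) (∑ i ∈ s, tr (G i) θ u))) := by
    simp_rw [hexp]
    exact integrable_finsetSum s fun i hi => integrable_finsetSum s fun j hj => hij i hi j hj
  rw [key _ hall, Finset.sum_congr rfl fun i hi => key _ (hij i hi i hi),
    ← ENNReal.ofReal_sum_of_nonneg]
  · congr 1
    simp_rw [hexp]
    rw [integral_finsetSum s fun i hi => integrable_finsetSum s fun j hj => hij i hi j hj,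
      Complex.re_sum]
    refine Finset.sum_congr rfl fun i hi => ?_
    rw [integral_finsetSum s fun j hj => hij i hi j hj, Finset.sum_eq_single i]
    · intro j hj hne
      exact orth_pair hψ (hG i hi) (hG j hj) hθ (hsep i hi j hj hne.symm)
    · intro h; exact absurd hi h
  · intro i hi
    have h2 := integral_re (𝕜 := ℂ) (hij i hi i hi)
    simp only [RCLike.re_to_complex] at h2
    rw [← h2]
    refine integral_nonneg fun u => ?_
    simp only [Pi.zero_apply]
    rw [Complex.mul_conj, Complex.normSq_eq_norm_sq, ← Complex.ofReal_mul, Complex.ofReal_re]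
    exact mul_nonneg (hψ.nonneg u) (sq_nonneg _)

/-- orthogonality for a colouring with finitely many colours -/
theorem orth_colour {ι κ : Type*} [Fintype κ] {ψ : W → ℝ} (hψ : IsMaj W ψ) (s : Finset ι)
    (G : ι → V n → ℂ) (hG : ∀ i ∈ s, Integrable (G i)) {θ : V n → W} (hθ : Measurable θ)
    (col : ι → κ)
    (hsep : ∀ i ∈ s, ∀ j ∈ s, i ≠ j → col i = col j →
      ∀ x y, G i x ≠ 0 → G j y ≠ 0 → 1 ≤ ‖θ x - θ y‖) :
    ∫⁻ u, ENNReal.ofReal (ψ u) * ‖∑ i ∈ s, tr (G i) θ u‖ₑ ^ 2 ≤
      (Fintype.card κ : ℝ≥0∞) * ∑ i ∈ s, ∫⁻ u, ENNReal.ofReal (ψ u) * ‖tr (G i) θ u‖ₑ ^ 2 := by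
  classical
  have hm : ∀ c : κ, Measurable fun u => ENNReal.ofReal (ψ u) *
      ‖∑ i ∈ s with col i = c, tr (G i) θ u‖ₑ ^ 2 := by
    intro c
    refine hψ.cont.measurable.ennreal_ofReal.mul (Measurable.pow_const (Measurable.enorm ?_) 2)
    exact (continuous_finsetSum _ fun i hi =>
      continuous_tr (hG i (Finset.mem_filter.1 hi).1) hθ).measurable
  calc ∫⁻ u, ENNReal.ofReal (ψ u) * ‖∑ i ∈ s, tr (G i) θ u‖ₑ ^ 2
      ≤ ∫⁻ u, (Fintype.card κ : ℝ≥0∞) * ∑ c : κ, ENNReal.ofReal (ψ u) *
          ‖∑ i ∈ s with col i = c, tr (G i) θ u‖ₑ ^ 2 := by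
        refine lintegral_mono fun u => ?_
        have h := enorm_sum_sq_le (Finset.univ : Finset κ)
          (fun c => ∑ i ∈ s with col i = c, tr (G i) θ u) (fun _ => 1) (fun _ _ => one_pos)
        rw [Finset.sum_fiberwise s col fun i => tr (G i) θ u] at h
        simp only [inv_one, Finset.sum_const, Finset.card_univ, nsmul_eq_mul, mul_one,
          ENNReal.ofReal_natCast, ENNReal.ofReal_one, one_mul] at h
        rw [← Finset.mul_sum, mul_left_comm]
        gcongr
    _ = (Fintype.card κ : ℝ≥0∞) * ∑ c : κ, ∑ i ∈ s with col i = c,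
          ∫⁻ u, ENNReal.ofReal (ψ u) * ‖tr (G i) θ u‖ₑ ^ 2 := by
        rw [lintegral_const_mul' _ _ (ENNReal.natCast_ne_top _),
          lintegral_finsetSum _ fun c _ => hm c]
        congr 1
        refine Finset.sum_congr rfl fun c _ => ?_
        refine orth_sum hψ _ G (fun i hi => hG i (Finset.mem_filter.1 hi).1) hθ ?_
        intro i hi j hj hne
        rw [Finset.mem_filter] at hi hj
        exact hsep i hi.1 j hj.1 hne (hi.2.trans hj.2.symm)
    _ = _ := by
        rw [Finset.sum_fiberwise s col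
          fun i => ∫⁻ u, ENNReal.ofReal (ψ u) * ‖tr (G i) θ u‖ₑ ^ 2]

end Orth

end Crest.Agent.N76.Red
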