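import Crest.Agent.N76.Red.Basic

/-! # Row 76: parabolic scaling of `Phi` (helper14). -/

set_option autoImplicit false

open MeasureTheory Set Metric
open scoped ENNReal RealInnerProductSpace

namespace Crest.Agent.N76.Red

variable {n : ℕ}

theorem lintegral_smul_eq {W : Type*} [NormedAddCommGroup W] [InnerProductSpace ℝ W]
    [FiniteDimensional ℝ W] [MeasurableSpace W] [BorelSpace W] (F : W → ℝ≥0∞) {ρ : ℝ}
    (hρ : 0 < ρ) :
    ∫⁻ ξ, F ξ = ENNReal.ofReal (ρ ^ Module.finrank ℝ W) * ∫⁻ ζ, F (ρ • ζ) := by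
  have h1 : ∫⁻ ζ, F (ρ • ζ) = ∫⁻ ξ, F ξ ∂(Measure.map (fun ζ : W => ρ • ζ) volume) :=
    (lintegral_map_equiv F (Homeomorph.smul (isUnit_iff_ne_zero.2 hρ.ne').unit).toMeasurableEquiv).symm
  rw [h1, Measure.map_addHaar_smul volume hρ.ne', lintegral_smul_measure, smul_eq_mul, ← mul_assoc,
    ← ENNReal.ofReal_mul (by positivity), abs_of_pos (by positivity),
    mul_inv_cancel₀ (by positivity), ENNReal.ofReal_one, one_mul]

/-- the rescaled set -/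
def sE (E : Set (V n)) (x₀ : V n) (ρ : ℝ) : Set (V n) := {y | x₀ + ρ⁻¹ • y ∈ E}

/-- the rescaled time function -/
noncomputable def sT (τ : V n → ℝ) (x₀ : V n) (τ₀ ρ : ℝ) : V n → ℝ :=
  fun y => ρ ^ 2 * (τ (x₀ + ρ⁻¹ • y) - τ₀)

theorem measurable_aff (x₀ : V n) (ρ : ℝ) : Measurable (fun y : V n => x₀ + ρ⁻¹ • y) := by
  fun_prop

theorem measurableSet_sE {E : Set (V n)} (hE : MeasurableSet E) (x₀ : V n) (ρ : ℝ) :
    MeasurableSet (sE E x₀ ρ) := measurable_aff x₀ ρ hE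

theorem measurable_sT {τ : V n → ℝ} (hτ : Measurable τ) (x₀ : V n) (τ₀ ρ : ℝ) :
    Measurable (sT τ x₀ τ₀ ρ) :=
  ((hτ.comp (measurable_aff x₀ ρ)).sub_const _).const_mul _

theorem volume_sE (E : Set (V n)) (x₀ : V n) {ρ : ℝ} (hρ : 0 < ρ) :
    volume (sE E x₀ ρ) = ENNReal.ofReal (ρ ^ n) * volume E := by
  have : sE E x₀ ρ = (fun y : V n => ρ⁻¹ • y) ⁻¹' ((fun y => x₀ + y) ⁻¹' E) := rfl
  rw [this, Measure.addHaar_preimage_smul volume (inv_ne_zero hρ.ne'), measure_preimage_add]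
  simp [abs_of_pos (pow_pos hρ n)]

theorem norm_H_scale (g : V n → ℂ) (τ : V n → ℝ) (x₀ : V n) (τ₀ : ℝ) {ρ : ℝ} (hρ : 0 < ρ)
    (ζ : V n) :
    ‖H g τ (ρ • ζ)‖ = (ρ ^ n)⁻¹ * ‖H (fun y => g (x₀ + ρ⁻¹ • y)) (sT τ x₀ τ₀ ρ) ζ‖ := by
  unfold H HH
  set F : V n → ℂ := fun x => g x * ph (⟪x, ρ • ζ⟫ + τ x * ‖ρ • ζ‖ ^ 2) with hF
  have h1 : ∫ y, F (x₀ + ρ⁻¹ • y) = (ρ ^ n) • ∫ x, F x := by
    have := Measure.integral_comp_inv_smul_of_nonneg volume (fun y => F (x₀ + y)) hρ.le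
    simp only [finrank_euclideanSpace, Fintype.card_fin] at this
    rw [this, integral_add_left_eq_self]
  have h2 : ∀ y, F (x₀ + ρ⁻¹ • y) = ph (⟪x₀, ρ • ζ⟫ + ρ ^ 2 * τ₀ * ‖ζ‖ ^ 2) *
      (g (x₀ + ρ⁻¹ • y) * ph (⟪y, ζ⟫ + sT τ x₀ τ₀ ρ y * ‖ζ‖ ^ 2)) := by
    intro y
    simp only [hF, sT]
    rw [mul_left_comm, ← ph_add]
    congr 2
    rw [inner_add_left, inner_smul_left, inner_smul_right y, norm_smul, Real.norm_of_nonneg hρ.le]
    simp only [conj_trivial]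
    field_simp
    ring
  simp_rw [h2] at h1
  rw [integral_const_mul] at h1
  have h3 := congrArg norm h1
  rw [norm_mul, norm_ph, one_mul, norm_smul, Real.norm_of_nonneg (by positivity)] at h3
  rw [h3]; field_simp

theorem Phi_scale (E : Set (V n)) (τ : V n → ℝ) (x₀ : V n) (τ₀ : ℝ) {ρ : ℝ} (hρ : 0 < ρ)
    (N : ℝ) :
    Phi E τ (ρ * N) ≤ ENNReal.ofReal ((ρ ^ n)⁻¹) * Phi (sE E x₀ ρ) (sT τ x₀ τ₀ ρ) N := by
  refine Phi_le fun g hg => ?_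
  have hg' : Adm (sE E x₀ ρ) (fun y => g (x₀ + ρ⁻¹ • y)) :=
    ⟨hg.1.comp (measurable_aff x₀ ρ), fun y => hg.2.1 _, fun y hy => hg.2.2 _ hy⟩
  rw [← lintegral_indicator measurableSet_closedBall, lintegral_smul_eq _ hρ]
  simp only [finrank_euclideanSpace, Fintype.card_fin]
  have key : ∀ ζ : V n, (closedBall (0 : V n) (ρ * N)).indicator
      (fun ξ => ‖H g τ ξ‖ₑ ^ 2) (ρ • ζ) = ENNReal.ofReal ((ρ ^ n)⁻¹ ^ 2) *
      (closedBall (0 : V n) N).indicator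
        (fun ζ => ‖H (fun y => g (x₀ + ρ⁻¹ • y)) (sT τ x₀ τ₀ ρ) ζ‖ₑ ^ 2) ζ := by
    intro ζ
    have hiff : ρ • ζ ∈ closedBall (0 : V n) (ρ * N) ↔ ζ ∈ closedBall (0 : V n) N := by
      simp only [mem_closedBall_zero_iff, norm_smul, Real.norm_of_nonneg hρ.le]
      exact mul_le_mul_iff_right₀ hρ
    by_cases hζ : ζ ∈ closedBall (0 : V n) N
    · rw [indicator_of_mem hζ, indicator_of_mem (hiff.2 hζ), enorm_sq_eq, enorm_sq_eq,
        norm_H_scale g τ x₀ τ₀ hρ, mul_pow, ENNReal.ofReal_mul (by positivity)]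
    · rw [indicator_of_notMem hζ, indicator_of_notMem (fun h => hζ (hiff.1 h)), mul_zero]
  simp_rw [key]
  rw [lintegral_const_mul' _ _ ENNReal.ofReal_ne_top, lintegral_indicator measurableSet_closedBall,
    ← mul_assoc, ← ENNReal.ofReal_mul (by positivity)]
  have : ρ ^ n * (ρ ^ n)⁻¹ ^ 2 = (ρ ^ n)⁻¹ := by field_simp
  rw [this]
  gcongr
  exact le_Phi hg' _ _

end Crest.Agent.N76.Red
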