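import Crest.Agent.N76.Red.TimeLoc

/-! # Row 76: localisation in space for a short time window (helper14). -/

set_option autoImplicit false

open MeasureTheory Set Metric
open scoped ENNReal RealInnerProductSpace

namespace Crest.Agent.N76.Red

variable {n : ℕ}

/-- a neighbourhood of the paraboloid -/
def Par (n : ℕ) (M a : ℝ) : Set (V n × ℝ) := {p | ‖p.1‖ ≤ M ∧ |p.2 - ‖p.1‖ ^ 2| ≤ a}

theorem measurableSet_Par (M a : ℝ) : MeasurableSet (Par n M a) := by
  have h1 : Measurable fun p : V n × ℝ => ‖p.1‖ := by fun_prop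
  have h2 : Measurable fun p : V n × ℝ => |p.2 - ‖p.1‖ ^ 2| := by fun_prop
  exact (measurableSet_le h1 measurable_const).inter (measurableSet_le h2 measurable_const)

theorem lintegral_Par {F : V n × ℝ → ℝ≥0∞} (hF : Measurable F) (M a : ℝ) :
    ∫⁻ p, (Par n M a).indicator F p =
      ∫⁻ ξ in closedBall (0 : V n) M, ∫⁻ u in Icc (-a) a, F (ξ, ‖ξ‖ ^ 2 + u) := by
  rw [Measure.volume_eq_prod, lintegral_prod _ (hF.indicator (measurableSet_Par M a)).aemeasurable,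
    ← lintegral_indicator measurableSet_closedBall]
  refine lintegral_congr fun ξ => ?_
  by_cases hξ : ξ ∈ closedBall (0 : V n) M
  · rw [indicator_of_mem hξ, ← lintegral_indicator measurableSet_Icc,
      ← lintegral_add_left_eq_self _ (‖ξ‖ ^ 2)]
    refine lintegral_congr fun u => ?_
    by_cases hu : u ∈ Icc (-a) a
    · rw [indicator_of_mem hu, indicator_of_mem]
      exact ⟨mem_closedBall_zero_iff.1 hξ, by simpa using abs_le.2 hu⟩
    · rw [indicator_of_notMem hu, indicator_of_notMem]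
      intro h
      exact hu (abs_le.1 (by simpa using h.2))
  · rw [indicator_of_notMem hξ]
    refine (lintegral_congr fun u => ?_).trans lintegral_zero
    exact indicator_of_notMem (fun h => hξ (mem_closedBall_zero_iff.2 h.1)) _

/-- index of the cube of side `ρ` -/
noncomputable def cube (ρ : ℝ) (x : V n) : Fin n → ℤ := fun i => ⌊ρ⁻¹ * x i⌋

theorem measurableSet_cube (ρ : ℝ) (q : Fin n → ℤ) :
    MeasurableSet (cube (n := n) ρ ⁻¹' {q}) := by
  have : Measurable (cube (n := n) ρ) :=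
    measurable_pi_lambda _ fun i => Int.measurable_floor.comp (by fun_prop)
  exact this (measurableSet_singleton q)

theorem space_maj {ψ : V n → ℝ} (hψ : IsMaj (V n) ψ) {E : Set (V n)} (hE : MeasurableSet E)
    (hfin : volume E ≠ ∞) {τ : V n → ℝ} (hτ : Measurable τ) {g : V n → ℂ} (hg : Adm E g)
    (ρ : ℝ) (s : Finset (Fin n → ℤ)) (hs : ∀ x ∈ E, cube ρ x ∈ s) (ζ : V n) (σ : ℝ) :
    ∫⁻ v, ENNReal.ofReal (ψ v) * ‖HH g τ (ζ + ρ⁻¹ • v) σ‖ₑ ^ 2 ≤
      2 ^ n * ∑ q ∈ s, ∫⁻ v, ENNReal.ofReal (ψ v) *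
        ‖HH ((cube ρ ⁻¹' {q}).indicator g) τ (ζ + ρ⁻¹ • v) σ‖ₑ ^ 2 := by
  classical
  set G : (Fin n → ℤ) → V n → ℂ := fun j => (cube ρ ⁻¹' {j}).indicator g with hG
  have hGi : ∀ j, Integrable (G j) := fun j =>
    (hg.integrable hE hfin).indicator (measurableSet_cube ρ j)
  have htr : ∀ j v, HH (G j) τ (ζ + ρ⁻¹ • v) σ =
      tr (fun x => G j x * ph (⟪x, ζ⟫ + τ x * σ)) (fun x => ρ⁻¹ • x) v := by
    intro j v
    unfold HH tr
    congr 1; ext x
    rw [mul_assoc (G j x), ← ph_add]; congr 2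
    rw [inner_add_right, inner_smul_right, inner_smul_left]
    simp only [conj_trivial]; ring
  have h1 : ∀ v, HH g τ (ζ + ρ⁻¹ • v) σ = ∑ j ∈ s, HH (G j) τ (ζ + ρ⁻¹ • v) σ := by
    intro v
    rw [← HH_sum s G (fun j _ => hGi j) hτ, ← eq_sum_fibres hg (cube ρ) s hs]
  change _ ≤ 2 ^ n * ∑ q ∈ s, ∫⁻ v, ENNReal.ofReal (ψ v) * ‖HH (G q) τ (ζ + ρ⁻¹ • v) σ‖ₑ ^ 2
  simp_rw [h1, htr]
  have h2 := orth_colour hψ s (fun j x => G j x * ph (⟪x, ζ⟫ + τ x * σ))
    (fun j _ => integrable_mul_ph (hGi j) (measurable_phase hτ _ _))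
    (θ := fun x => ρ⁻¹ • x) (by fun_prop)
    (fun (j : Fin n → ℤ) (i : Fin n) => decide (j i % 2 = 0)) ?_
  · simpa using h2
  · intro i _ j _ hne hcol x y hx hy
    have hx' : cube ρ x = i := by
      by_contra h
      exact hx (by simp [hG, indicator_of_notMem (show x ∉ cube ρ ⁻¹' {i} from h)])
    have hy' : cube ρ y = j := by
      by_contra h
      exact hy (by simp [hG, indicator_of_notMem (show y ∉ cube ρ ⁻¹' {j} from h)])
    obtain ⟨k, hk⟩ := Function.ne_iff.1 hne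
    have hpar : i k % 2 = j k % 2 := by
      have : i k % 2 = 0 ↔ j k % 2 = 0 := by simpa using congrFun hcol k
      omega
    have h3 := floor_sep (a := ρ⁻¹ * x k) (b := ρ⁻¹ * y k)
      (by change cube ρ x k ≠ cube ρ y k; rw [hx', hy']; exact hk)
      (by change cube ρ x k % 2 = cube ρ y k % 2; rw [hx', hy']; exact hpar)
    refine h3.trans (le_trans (le_of_eq ?_) (abs_coord_le (ρ⁻¹ • x - ρ⁻¹ • y) k))
    simp

theorem par_maj {ψ : V n → ℝ} (hψ : IsMaj (V n) ψ) {ρ : ℝ} (hρ : 1 ≤ ρ) {p : V n × ℝ}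
    (hp : p ∈ Par n 1 ρ⁻¹) :
    volume (closedBall (0 : V n) 1) ≤ ∫⁻ v, ENNReal.ofReal (ψ v) *
      (Par n 2 (4 * ρ⁻¹)).indicator 1 (p - (ρ⁻¹ • v, 0)) := by
  rw [← lintegral_indicator_one measurableSet_closedBall]
  refine lintegral_mono fun v => ?_
  by_cases hv : v ∈ closedBall (0 : V n) 1
  · have hv' := mem_closedBall_zero_iff.1 hv
    have hr0 : 0 < ρ⁻¹ := by positivity
    have hr1 : ρ⁻¹ ≤ 1 := inv_le_one_of_one_le₀ hρ
    have hw : ‖ρ⁻¹ • v‖ ≤ ρ⁻¹ := by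
      rw [norm_smul, Real.norm_of_nonneg hr0.le]; nlinarith
    have hmem : p - (ρ⁻¹ • v, 0) ∈ Par n 2 (4 * ρ⁻¹) := by
      obtain ⟨h1, h2⟩ := hp
      set w := ρ⁻¹ • v
      have h3 := norm_sub_le p.1 w
      have h4 : |⟪p.1, w⟫| ≤ ρ⁻¹ :=
        (abs_real_inner_le_norm _ _).trans (by nlinarith [norm_nonneg p.1, norm_nonneg w])
      have h5 : ‖w‖ ^ 2 ≤ ρ⁻¹ := by nlinarith [norm_nonneg w]
      refine ⟨by simp only [Prod.fst_sub]; linarith, ?_⟩
      simp only [Prod.fst_sub, Prod.snd_sub, sub_zero]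
      rw [norm_sub_sq_real]
      rw [abs_le] at h2 h4 ⊢
      constructor <;> nlinarith [sq_nonneg ‖w‖]
    rw [indicator_of_mem hv, indicator_of_mem hmem, Pi.one_apply, Pi.one_apply, mul_one,
      ← ENNReal.ofReal_one]
    exact ENNReal.ofReal_le_ofReal (hψ.one_le v hv')
  · rw [indicator_of_notMem hv]; exact zero_le

/-- **Space localisation.** -/
theorem spaceLoc (n : ℕ) : ∃ C : ℝ≥0∞, C ≠ ∞ ∧ ∀ ρ : ℝ, 1 ≤ ρ →
    ∀ E : Set (V n), MeasurableSet E → volume E ≠ ∞ → ∀ τ : V n → ℝ, Measurable τ →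
    (∀ x ∈ E, |τ x| ≤ ρ) → ∀ s : Finset (Fin n → ℤ), (∀ x ∈ E, cube ρ x ∈ s) →
      Phi E τ 1 ≤ C * ∑ q ∈ s, Phi (E ∩ cube ρ ⁻¹' {q}) τ 2 := by
  obtain ⟨ψ, hψ⟩ := exists_isMaj (V n)
  have hΨ : ∫⁻ v, ENNReal.ofReal (ψ v) ≠ ∞ := hψ.int.lintegral_lt_top.ne
  set b : ℝ≥0∞ := volume (closedBall (0 : V n) 1) with hb
  have hb0 : b ≠ 0 := (measure_closedBall_pos volume _ one_pos).ne'
  have hbt : b ≠ ∞ := measure_closedBall_lt_top.ne
  refine ⟨b⁻¹ * (12 * (2 ^ n * ((∫⁻ v, ENNReal.ofReal (ψ v)) * 8))), ?_,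
    fun ρ hρ E hE hfin τ hτ hτρ s hs => Phi_le fun g hg => ?_⟩
  · have : b⁻¹ ≠ ∞ := ENNReal.inv_ne_top.2 hb0
    finiteness
  have hρ0 : 0 < ρ := by linarith
  obtain ⟨g', hg', hth⟩ := thick hE hfin hg (p := fun x => ρ⁻¹ * τ x) (hτ.const_mul _)
    (fun x hx => by
      rw [abs_mul, abs_of_pos (inv_pos.2 hρ0), inv_mul_le_iff₀ hρ0, mul_one]; exact hτρ x hx)
  have hi : Integrable g' := hg'.integrable hE hfin
  set F : V n × ℝ → ℝ≥0∞ := fun p => ‖HH g' τ p.1 p.2‖ₑ ^ 2 with hF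
  have mF : Measurable F := measurable_HH_sq hi hτ
  set G : (Fin n → ℤ) → V n → ℂ := fun j => (cube ρ ⁻¹' {j}).indicator g' with hG
  have hGi : ∀ j, Integrable (G j) := fun j => hi.indicator (measurableSet_cube ρ j)
  have mψ : Measurable fun v => ENNReal.ofReal (ψ v) := hψ.cont.measurable.ennreal_ofReal
  have mS' := measurableSet_Par (n := n) 2 (4 * ρ⁻¹)
  have mG : ∀ j, Measurable fun q : (V n × ℝ) × V n => ENNReal.ofReal (ψ q.2) *
      ‖HH (G j) τ (q.1.1 + ρ⁻¹ • q.2) q.1.2‖ₑ ^ 2 := fun j =>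
    (mψ.comp measurable_snd).mul ((measurable_HH_sq (hGi j) hτ).comp
      (f := fun q : (V n × ℝ) × V n => (q.1.1 + ρ⁻¹ • q.2, q.1.2)) (by fun_prop))
  -- step 1: thickening
  have s1 : ∫⁻ ξ in closedBall (0 : V n) 1, ‖H g τ ξ‖ₑ ^ 2 ≤
      12 * (ENNReal.ofReal ρ * ∫⁻ p, (Par n 1 ρ⁻¹).indicator F p) := by
    rw [lintegral_Par mF, ← lintegral_const_mul' _ _ ENNReal.ofReal_ne_top,
      ← lintegral_const_mul' _ _ (by norm_num)]
    refine lintegral_mono fun ξ => ?_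
    refine (hth _ (measurable_phase hτ ξ (‖ξ‖ ^ 2))).trans ?_
    gcongr
    rw [← lintegral_indicator measurableSet_Icc, ← lintegral_indicator measurableSet_Icc,
      lintegral_smul_eq _ hρ0]
    simp only [Module.finrank_self, pow_one, smul_eq_mul]
    gcongr with u
    by_cases hu : ρ * u ∈ Icc (-(1 / 6) : ℝ) (1 / 6)
    · have hu' : u ∈ Icc (-ρ⁻¹) ρ⁻¹ := by
        have h1 : |ρ * u| ≤ 1 / 6 := abs_le.2 hu
        rw [abs_mul, abs_of_pos hρ0] at h1
        refine abs_le.1 ?_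
        rw [← one_div, le_div_iff₀ hρ0]; linarith
      rw [indicator_of_mem hu, indicator_of_mem hu']
      refine le_of_eq ?_
      simp only [hF, HH]
      congr 3; ext x; congr 2; field_simp; ring
    · rw [indicator_of_notMem hu]; exact zero_le
  -- step 2: majorant
  have : (volume : Measure (V n × ℝ)).IsAddRightInvariant := by
    rw [Measure.volume_eq_prod]; infer_instance
  have s2 : b * ∫⁻ p, (Par n 1 ρ⁻¹).indicator F p ≤
      ∫⁻ p in Par n 2 (4 * ρ⁻¹), ∫⁻ v, ENNReal.ofReal (ψ v) * F (p + (ρ⁻¹ • v, 0)) := by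
    have m1 : Measurable fun q : (V n × ℝ) × V n => ENNReal.ofReal (ψ q.2) *
        (Par n 2 (4 * ρ⁻¹)).indicator 1 (q.1 - (ρ⁻¹ • q.2, 0)) * F q.1 :=
      ((mψ.comp measurable_snd).mul ((measurable_one.indicator mS').comp (by fun_prop))).mul
        (mF.comp measurable_fst)
    have m2 : Measurable fun q : (V n × ℝ) × V n =>
        ENNReal.ofReal (ψ q.2) * F (q.1 + (ρ⁻¹ • q.2, 0)) :=
      (mψ.comp measurable_snd).mul (mF.comp (by fun_prop))
    calc b * ∫⁻ p, (Par n 1 ρ⁻¹).indicator F p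
        ≤ ∫⁻ p, ∫⁻ v, ENNReal.ofReal (ψ v) *
            (Par n 2 (4 * ρ⁻¹)).indicator 1 (p - (ρ⁻¹ • v, 0)) * F p := by
          rw [← lintegral_const_mul' _ _ hbt]
          refine lintegral_mono fun p => ?_
          by_cases hp : p ∈ Par n 1 ρ⁻¹
          · rw [indicator_of_mem hp, lintegral_mul_const' _ _
              (ENNReal.pow_ne_top enorm_ne_top)]
            gcongr
            exact par_maj hψ hρ hp
          · rw [indicator_of_notMem hp, mul_zero]; exact zero_le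
      _ = ∫⁻ v, ∫⁻ p in Par n 2 (4 * ρ⁻¹), ENNReal.ofReal (ψ v) * F (p + (ρ⁻¹ • v, 0)) := by
          rw [lintegral_lintegral_swap m1.aemeasurable]
          refine lintegral_congr fun v => ?_
          rw [← lintegral_indicator mS', ← lintegral_add_right_eq_self _ (ρ⁻¹ • v, (0 : ℝ))]
          refine lintegral_congr fun p => ?_
          simp only [add_sub_cancel_right]
          by_cases hp : p ∈ Par n 2 (4 * ρ⁻¹)
          · simp [indicator_of_mem hp]
          · simp [indicator_of_notMem hp]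
      _ = _ := (lintegral_lintegral_swap m2.aemeasurable).symm
  -- step 3: orthogonality and return to the paraboloid
  have s3 : ∫⁻ p in Par n 2 (4 * ρ⁻¹), ∫⁻ v, ENNReal.ofReal (ψ v) * F (p + (ρ⁻¹ • v, 0)) ≤
      2 ^ n * ((∫⁻ v, ENNReal.ofReal (ψ v)) * (ENNReal.ofReal (8 * ρ⁻¹) *
        ∑ q ∈ s, Phi (E ∩ cube ρ ⁻¹' {q}) τ 2)) := by
    calc ∫⁻ p in Par n 2 (4 * ρ⁻¹), ∫⁻ v, ENNReal.ofReal (ψ v) * F (p + (ρ⁻¹ • v, 0))
        ≤ ∫⁻ p in Par n 2 (4 * ρ⁻¹), 2 ^ n * ∑ q ∈ s, ∫⁻ v, ENNReal.ofReal (ψ v) *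
            ‖HH (G q) τ (p.1 + ρ⁻¹ • v) p.2‖ₑ ^ 2 := by
          refine lintegral_mono fun p => ?_
          have := space_maj hψ hE hfin hτ hg' ρ s hs p.1 p.2
          simpa [hF] using this
      _ = 2 ^ n * ∑ q ∈ s, ∫⁻ v, ENNReal.ofReal (ψ v) * ∫⁻ p in Par n 2 (4 * ρ⁻¹),
            ‖HH (G q) τ (p.1 + ρ⁻¹ • v) p.2‖ₑ ^ 2 := by
          rw [lintegral_const_mul' _ _ (by finiteness),
            lintegral_finsetSum _ fun j _ => (mG j).lintegral_prod_right']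
          congr 1
          refine Finset.sum_congr rfl fun j _ => ?_
          rw [lintegral_lintegral_swap (mG j).aemeasurable]
          refine lintegral_congr fun v => ?_
          exact lintegral_const_mul' (ENNReal.ofReal (ψ v)) _ ENNReal.ofReal_ne_top
      _ ≤ 2 ^ n * ∑ q ∈ s, ∫⁻ v, ENNReal.ofReal (ψ v) * (ENNReal.ofReal (8 * ρ⁻¹) *
            Phi (E ∩ cube ρ ⁻¹' {q}) τ 2) := by
          gcongr with q hq v
          have mq : Measurable fun p : V n × ℝ => ‖HH (G q) τ (p.1 + ρ⁻¹ • v) p.2‖ₑ ^ 2 :=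
            (measurable_HH_sq (hGi q) hτ).comp
              (f := fun p : V n × ℝ => (p.1 + ρ⁻¹ • v, p.2)) (by fun_prop)
          rw [← lintegral_indicator mS', lintegral_Par mq, lintegral_lintegral_swap]
          · calc _ ≤ ∫⁻ _ in Icc (-(4 * ρ⁻¹)) (4 * ρ⁻¹), Phi (E ∩ cube ρ ⁻¹' {q}) τ 2 :=
                  lintegral_mono fun u => lintegral_HH_shift_le
                    (hg'.indicator (measurableSet_cube ρ q)) hτ 2 (ρ⁻¹ • v) u
              _ = _ := by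
                  rw [setLIntegral_const, Real.volume_Icc, mul_comm]; congr 2; ring
          · exact (mq.comp (f := fun q : V n × ℝ => (q.1, ‖q.1‖ ^ 2 + q.2))
              (by fun_prop)).aemeasurable
      _ = _ := by
          congr 1
          rw [Finset.mul_sum, Finset.mul_sum]
          refine Finset.sum_congr rfl fun j _ => ?_
          rw [lintegral_mul_const _ mψ]
  have s4 : ∫⁻ p, (Par n 1 ρ⁻¹).indicator F p ≤ b⁻¹ * (2 ^ n * ((∫⁻ v, ENNReal.ofReal (ψ v)) *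
      (ENNReal.ofReal (8 * ρ⁻¹) * ∑ q ∈ s, Phi (E ∩ cube ρ ⁻¹' {q}) τ 2))) := by
    calc _ = b⁻¹ * (b * ∫⁻ p, (Par n 1 ρ⁻¹).indicator F p) := by
          rw [← mul_assoc, ENNReal.inv_mul_cancel hb0 hbt, one_mul]
      _ ≤ _ := mul_le_mul_right (s2.trans s3) _
  refine s1.trans ((mul_le_mul_right (mul_le_mul_right s4 _) _).trans (le_of_eq ?_))
  have h8 : ENNReal.ofReal ρ * ENNReal.ofReal (8 * ρ⁻¹) = 8 := by
    rw [← ENNReal.ofReal_mul hρ0.le, show ρ * (8 * ρ⁻¹) = 8 by field_simp]; norm_num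
  rw [← h8]; ring

end Crest.Agent.N76.Red
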