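import Crest.Agent.N76.Red.Pack

/-! # Row 76: from the level set estimate `SS` to the dual bound for `Phi` (helper14). -/

set_option autoImplicit false

open MeasureTheory Set Metric
open scoped ENNReal RealInnerProductSpace

namespace Crest.Agent.N76.Red

variable {n : ℕ}

theorem SS.normalise (hSS : SS n) :
    ∃ c C : ℝ, 0 < c ∧ c ≤ 1 / 2 ∧ 0 < C ∧ ∀ R : ℝ, 1 ≤ R → ∀ X : Finset (V n × ℝ),
    (∀ z ∈ X, ‖z.1‖ ≤ R ∧ |z.2| ≤ R) →
    (∀ z ∈ X, ∀ z' ∈ X, z ≠ z' → 1 ≤ ‖z.1 - z'.1‖) →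
    ∀ h : V n → ℂ, MemLp h 2 volume → (∀ ξ, 1 < ‖ξ‖ → h ξ = 0) →
    ∀ lam : ℝ, 0 ≤ lam → (∀ z ∈ X, lam ≤ ‖ext h z‖) →
      lam ^ 2 * (X.card : ℝ) ≤
        C * R ^ ((n : ℝ) / (n + 1)) * ((X.card : ℝ) / R ^ n) ^ c * ∫ ξ, ‖h ξ‖ ^ 2 := by
  classical
  obtain ⟨c, C, hc, H⟩ := hSS
  have hc' : 0 < min c (1 / 2) := lt_min hc (by norm_num)
  refine ⟨min c (1 / 2), max C 1 * ((3 : ℝ) ^ n) ^ (c - min c (1 / 2)), hc', min_le_right _ _,
    by positivity, fun R hR X hX hsep h hh hsupp lam hlam hl => ?_⟩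
  refine (H R hR X hX hsep h hh hsupp lam hlam hl).trans ?_
  have hinj : Set.InjOn Prod.fst (X : Set (V n × ℝ)) := by
    intro z hz z' hz' he
    by_contra hne
    have := hsep z hz z' hz' hne
    rw [he, sub_self, norm_zero] at this
    linarith
  have hcard : (X.card : ℝ) ≤ (2 * R + 1) ^ n := by
    rw [← Finset.card_image_of_injOn hinj]
    refine card_le_of_sep _ 0 (by linarith) ?_ ?_
    · intro y hy
      obtain ⟨z, hz, rfl⟩ := Finset.mem_image.1 hy
      simpa using (hX z hz).1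
    · intro y hy y' hy' hne
      obtain ⟨z, hz, rfl⟩ := Finset.mem_image.1 hy
      obtain ⟨z', hz', rfl⟩ := Finset.mem_image.1 hy'
      exact hsep z hz z' hz' fun h => hne (by rw [h])
  have hR0 : 0 < R := by linarith
  have ht0 : 0 ≤ (X.card : ℝ) / R ^ n := by positivity
  have ht : (X.card : ℝ) / R ^ n ≤ 3 ^ n := by
    rw [div_le_iff₀ (by positivity), ← mul_pow]
    exact hcard.trans (pow_le_pow_left₀ (by linarith) (by linarith) n)
  have hd : 0 ≤ c - min c (1 / 2) := sub_nonneg.2 (min_le_left _ _)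
  have h1 : ((X.card : ℝ) / R ^ n) ^ c ≤ ((3 : ℝ) ^ n) ^ (c - min c (1 / 2)) *
      ((X.card : ℝ) / R ^ n) ^ min c (1 / 2) := by
    calc ((X.card : ℝ) / R ^ n) ^ c
        = ((X.card : ℝ) / R ^ n) ^ ((c - min c (1 / 2)) + min c (1 / 2)) := by congr 1; ring
      _ = _ := Real.rpow_add_of_nonneg ht0 hd hc'.le
      _ ≤ _ := by gcongr
  have hI : 0 ≤ ∫ ξ, ‖h ξ‖ ^ 2 := integral_nonneg fun ξ => by positivity
  calc C * R ^ ((n : ℝ) / (n + 1)) * ((X.card : ℝ) / R ^ n) ^ c * ∫ ξ, ‖h ξ‖ ^ 2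
      ≤ max C 1 * R ^ ((n : ℝ) / (n + 1)) * (((3 : ℝ) ^ n) ^ (c - min c (1 / 2)) *
        ((X.card : ℝ) / R ^ n) ^ min c (1 / 2)) * ∫ ξ, ‖h ξ‖ ^ 2 := by
        gcongr
        exact le_max_left _ _
    _ = _ := by ring

theorem le_of_rpow_aux {c m m₀ l B : ℝ} (hc : c < 1) (hm₀ : 0 < m₀) (hl : 0 < l) (hB : 0 ≤ B)
    (h1 : l * m ≤ B * m ^ c) (h2 : B * m₀ ^ c ≤ l * m₀) : m ≤ m₀ := by
  by_contra hcon
  push Not at hcon
  have hm : 0 < m := hm₀.trans hcon
  have e1 : m ^ c = m * m ^ (c - 1) := by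
    rw [Real.rpow_sub_one hm.ne']; field_simp
  have e2 : m₀ ^ c = m₀ * m₀ ^ (c - 1) := by
    rw [Real.rpow_sub_one hm₀.ne']; field_simp
  have h3 : m ^ (c - 1) < m₀ ^ (c - 1) := Real.rpow_lt_rpow_of_neg hm₀ hcon (by linarith)
  have h4 : l ≤ B * m ^ (c - 1) := by
    rw [e1] at h1
    refine le_of_mul_le_mul_right ?_ hm
    linarith
  have h5 : B * m₀ ^ (c - 1) ≤ l := by
    rw [e2] at h2
    refine le_of_mul_le_mul_right ?_ hm₀
    linarith
  have hB' : 0 < B := by
    rcases hB.eq_or_lt with h | h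
    · rw [← h] at h4; linarith
    · exact h
  have := mul_lt_mul_of_pos_left h3 hB'
  linarith

theorem continuous_ext {h : V n → ℂ} (hh : Integrable h) : Continuous (ext h) := by
  unfold ext
  refine continuous_of_dominated (bound := fun x => ‖h x‖) (fun p => ?_) (fun p => ?_) hh.norm ?_
  · exact (integrable_mul_ph hh (by fun_prop)).1
  · exact Filter.Eventually.of_forall fun x => by rw [norm_mul, norm_ph, mul_one]
  · refine Filter.Eventually.of_forall fun x => ?_
    exact continuous_const.mul (continuous_ph.comp (by fun_prop))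

/-- duality between `H` and `ext` -/
theorem integral_mul_H {g h : V n → ℂ} (hg : Integrable g) (hh : Integrable h) {τ : V n → ℝ}
    (hτ : Measurable τ) : ∫ ξ, h ξ * H g τ ξ = ∫ x, g x * ext h (x, τ x) := by
  unfold H HH ext
  simp_rw [← integral_const_mul]
  rw [integral_integral_swap]
  · congr 1; ext x; congr 1; ext ξ; ring
  · have h1 : Integrable (fun p : V n × V n => h p.1 * g p.2) (volume.prod volume) :=
      hh.mul_prod hg
    have h2 : Measurable fun p : V n × V n => ph (⟪p.2, p.1⟫ + τ p.2 * ‖p.1‖ ^ 2) :=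
      measurable_ph.comp (by fun_prop)
    refine h1.norm.mono' ((h1.1.mul h2.aestronglyMeasurable).congr
      (Filter.Eventually.of_forall fun p => ?_)) (Filter.Eventually.of_forall fun p => ?_)
    · simp [Function.uncurry, mul_assoc]
    · simp [Function.uncurry, norm_ph]

theorem H_eq_zero {E : Set (V n)} (hE : volume E = 0) {g : V n → ℂ} (hg : Adm E g) (τ : V n → ℝ)
    (ξ : V n) : H g τ ξ = 0 := by
  unfold H HH
  refine integral_eq_zero_of_ae ?_
  filter_upwards [measure_eq_zero_iff_ae_notMem.1 hE] with x hx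
  simp [hg.2.2 x hx]

theorem Phi_eq_zero {E : Set (V n)} (hE : volume E = 0) (τ : V n → ℝ) (N : ℝ) : Phi E τ N = 0 :=
  le_antisymm (Phi_le fun g hg => by simp [H_eq_zero hE hg]) zero_le

/-- **Step A.** -/
theorem stepA (hSS : SS n) : ∃ c C : ℝ, 0 < c ∧ c ≤ 1 / 2 ∧ 0 < C ∧ ∀ R : ℝ, 1 ≤ R →
    ∀ E : Set (V n), MeasurableSet E → E ⊆ closedBall 0 R → ∀ τ : V n → ℝ, Measurable τ →
    (∀ x ∈ E, |τ x| ≤ R) → Phi E τ 1 ≤
      ENNReal.ofReal (C * R ^ ((n : ℝ) / (n + 1)) * (volume.real E / R ^ n) ^ c * volume.real E) := by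
  classical
  obtain ⟨c, C, hc, hc2, hC, HS⟩ := hSS.normalise
  set ω : ℝ := volume.real (ball (0 : V n) 1) with hω
  have hω0 : 0 ≤ ω := measureReal_nonneg
  refine ⟨c, (1 + 4 * ω) ^ 2 * C, hc, hc2, by positivity,
    fun R hR E hE hER τ hτ hτR => ?_⟩
  have hfin : volume E ≠ ∞ := ((measure_mono hER).trans_lt measure_closedBall_lt_top).ne
  rcases eq_or_ne (volume E) 0 with h0 | h0
  · rw [Phi_eq_zero h0]; exact zero_le
  set e : ℝ := volume.real E with he
  have he0 : 0 < e := ENNReal.toReal_pos h0 hfin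
  have hR0 : 0 < R := by linarith
  refine Phi_le fun g hg => ?_
  have hgi : Integrable g := hg.integrable hE hfin
  have hHc : Continuous (H g τ) := continuous_H hgi hτ
  set h : V n → ℂ := (closedBall (0 : V n) 1).indicator fun ξ => (starRingEnd ℂ) (H g τ ξ) with hh
  have hcc : Continuous fun ξ => (starRingEnd ℂ) (H g τ ξ) := Complex.continuous_conj.comp hHc
  have hhi : Integrable h := (integrable_indicator_iff measurableSet_closedBall).2
    (hcc.continuousOn.integrableOn_compact (isCompact_closedBall _ _))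
  have hh2 : MemLp h 2 volume := by
    rw [hh, memLp_indicator_iff_restrict measurableSet_closedBall]
    have : IsFiniteMeasure (volume.restrict (closedBall (0 : V n) 1)) :=
      isFiniteMeasure_restrict.2 measure_closedBall_lt_top.ne
    exact MemLp.of_bound hcc.aestronglyMeasurable (∫ x, ‖g x‖)
      (Filter.Eventually.of_forall fun ξ => by
        rw [Complex.norm_conj]; exact norm_HH_le τ ξ _)
  set J : ℝ := ∫ ξ in closedBall (0 : V n) 1, ‖H g τ ξ‖ ^ 2 with hJ
  have hJ0 : 0 ≤ J := integral_nonneg fun ξ => by positivity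
  have hJ1 : ∫ ξ, ‖h ξ‖ ^ 2 = J := by
    rw [hJ, ← integral_indicator measurableSet_closedBall]
    congr 1; ext ξ
    by_cases hξ : ξ ∈ closedBall (0 : V n) 1 <;> simp [hh, hξ]
  have hJ2 : ∫⁻ ξ in closedBall (0 : V n) 1, ‖H g τ ξ‖ₑ ^ 2 = ENNReal.ofReal J := by
    rw [hJ, ofReal_integral_eq_lintegral_ofReal (f := fun ξ => ‖H g τ ξ‖ ^ 2)
      ((hHc.norm.pow 2).continuousOn.integrableOn_compact (isCompact_closedBall _ _))
      (Filter.Eventually.of_forall fun ξ => by positivity)]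
    simp_rw [enorm_sq_eq]
  have hJ3 : (J : ℂ) = ∫ x, g x * ext h (x, τ x) := by
    rw [← integral_mul_H hgi hhi hτ, ← hJ1, ← integral_complex_ofReal]
    congr 1; ext ξ
    by_cases hξ : ξ ∈ closedBall (0 : V n) 1
    · simp [hh, hξ, Complex.conj_mul']
    · simp [hh, hξ]
  rw [hJ2]
  refine ENNReal.ofReal_le_ofReal ?_
  rcases hJ0.eq_or_lt with hJz | hJp
  · rw [← hJz]; positivity
  set B : ℝ := C * R ^ ((n : ℝ) / (n + 1)) / (R ^ n) ^ c * J with hB
  have hB0 : 0 < B := by positivity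
  set l : ℝ := √(B * e ^ c / e) with hl
  have hl0 : 0 < l := Real.sqrt_pos.2 (by positivity)
  have hl2 : l ^ 2 * e = B * e ^ c := by
    rw [hl, Real.sq_sqrt (by positivity)]; field_simp
  set F : V n → ℝ := fun x => ‖ext h (x, τ x)‖ with hF
  have mF : Measurable F := ((continuous_ext hhi).measurable.comp (by fun_prop)).norm
  have hlev : ∀ k : ℕ, (volume.restrict E) {x | 2 ^ k * l ≤ F x} ≤
      ENNReal.ofReal (ω * e / 4 ^ k) := by
    intro k
    rw [Measure.restrict_apply (measurableSet_le measurable_const mF)]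
    obtain ⟨Y, hY1, hY2, hY3⟩ := exists_sep_cover ({x | 2 ^ k * l ≤ F x} ∩ E) hR0.le
      (fun x hx => mem_closedBall_zero_iff.1 (hER hx.2))
    have hinj : Function.Injective fun x : V n => (x, τ x) := fun x y hxy => congrArg Prod.fst hxy
    have key := HS R hR (Y.image fun x => (x, τ x)) ?_ ?_ h hh2 ?_ (2 ^ k * l) (by positivity) ?_
    · rw [Finset.card_image_of_injective _ hinj, hJ1,
        Real.div_rpow (Nat.cast_nonneg _) (by positivity)] at key
      have hm : (Y.card : ℝ) ≤ e / 4 ^ k := by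
        refine le_of_rpow_aux (c := c) (l := (2 ^ k * l) ^ 2) (B := B) (by linarith)
          (by positivity) (by positivity) hB0.le (key.trans (le_of_eq ?_)) ?_
        · rw [hB]; ring
        · have h4 : (4 : ℝ) ^ k = 2 ^ k * 2 ^ k := by rw [← mul_pow]; norm_num
          have h5 : (2 ^ k * l) ^ 2 * (e / 4 ^ k) = l ^ 2 * e := by rw [h4]; field_simp
          rw [h5, hl2]
          gcongr
          exact div_le_self he0.le (one_le_pow₀ (by norm_num))
      refine hY3.trans ?_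
      rw [← ofReal_measureReal (μ := volume) (s := ball (0 : V n) 1) measure_ball_lt_top.ne,
        ← ENNReal.ofReal_natCast, ← ENNReal.ofReal_mul (Nat.cast_nonneg _)]
      refine ENNReal.ofReal_le_ofReal ?_
      calc (Y.card : ℝ) * ω ≤ e / 4 ^ k * ω := by gcongr
        _ = _ := by ring
    · intro z hz
      obtain ⟨x, hx, rfl⟩ := Finset.mem_image.1 hz
      exact ⟨mem_closedBall_zero_iff.1 (hER (hY1 x hx).2), hτR x (hY1 x hx).2⟩
    · intro z hz z' hz' hne
      obtain ⟨x, hx, rfl⟩ := Finset.mem_image.1 hz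
      obtain ⟨x', hx', rfl⟩ := Finset.mem_image.1 hz'
      exact hY2 x hx x' hx' fun h => hne (by rw [h])
    · intro ξ hξ
      exact indicator_of_notMem (by simpa using hξ) _
    · intro z hz
      obtain ⟨x, hx, rfl⟩ := Finset.mem_image.1 hz
      exact (hY1 x hx).1
  have hint := lintegral_le_of_levels (volume.restrict E) mF hl0 (by positivity) hlev
  rw [Measure.restrict_apply_univ, ← ofReal_measureReal hfin, ← ENNReal.ofReal_mul hl0.le,
    ← ENNReal.ofReal_add (by positivity) (by positivity)] at hint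
  have hJ4 : ENNReal.ofReal J ≤ ∫⁻ x in E, ENNReal.ofReal (F x) := by
    calc ENNReal.ofReal J = ‖(J : ℂ)‖ₑ := by
          rw [← ofReal_norm, Complex.norm_real, Real.norm_of_nonneg hJ0]
      _ ≤ ∫⁻ x, ‖g x * ext h (x, τ x)‖ₑ := by
          rw [hJ3]; exact enorm_integral_le_lintegral_enorm _
      _ ≤ _ := by
          rw [← lintegral_indicator hE]
          refine lintegral_mono fun x => ?_
          by_cases hx : x ∈ E
          · rw [indicator_of_mem hx, ← ofReal_norm, norm_mul]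
            exact ENNReal.ofReal_le_ofReal (mul_le_of_le_one_left (norm_nonneg _) (hg.2.1 x))
          · simp [hg.2.2 x hx]
  have hJ5 : J ≤ (1 + 4 * ω) * l * e := by
    have := (ENNReal.ofReal_le_ofReal_iff (by positivity)).1 (hJ4.trans hint)
    linarith
  have hJ6 : J * J ≤ ((1 + 4 * ω) ^ 2 * C * R ^ ((n : ℝ) / (n + 1)) * (e / R ^ n) ^ c * e) * J := by
    calc J * J ≤ ((1 + 4 * ω) * l * e) * ((1 + 4 * ω) * l * e) := by gcongr
      _ = (1 + 4 * ω) ^ 2 * (l ^ 2 * e) * e := by ring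
      _ = _ := by
          rw [hl2, hB, Real.div_rpow he0.le (by positivity)]; ring
  exact le_of_mul_le_mul_right hJ6 hJp

end Crest.Agent.N76.Red
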