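import Crest.Agent.N76.Red.StepA
import Crest.Agent.N76.Red.Scale
import Crest.Agent.N76.Red.SpaceLoc

/-! # Row 76: window gain and small set gain at one frequency (helper14). -/

set_option autoImplicit false

open MeasureTheory Set Metric
open scoped ENNReal RealInnerProductSpace

namespace Crest.Agent.N76.Red

variable {n : ℕ}

/-- the conclusion of step A -/
def SA (n : ℕ) (c C : ℝ) : Prop := ∀ R : ℝ, 1 ≤ R →
    ∀ E : Set (V n), MeasurableSet E → E ⊆ closedBall 0 R → ∀ τ : V n → ℝ, Measurable τ →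
    (∀ x ∈ E, |τ x| ≤ R) → Phi E τ 1 ≤
      ENNReal.ofReal (C * R ^ ((n : ℝ) / (n + 1)) * (volume.real E / R ^ n) ^ c * volume.real E)

theorem sum_vol_fibres_le {ι : Type*} {E : Set (V n)} (hE : MeasurableSet E) (ℓ : V n → ι)
    (hℓ : ∀ i, MeasurableSet (ℓ ⁻¹' {i})) (s : Finset ι) :
    ∑ i ∈ s, volume (E ∩ ℓ ⁻¹' {i}) ≤ volume E := by
  rw [← measure_biUnion_finset _ fun i _ => hE.inter (hℓ i)]
  · exact measure_mono (iUnion₂_subset fun i _ => inter_subset_left)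
  · intro i _ j _ hij
    refine Set.disjoint_left.2 fun x hx hx' => hij ?_
    rw [← mem_singleton_iff.1 hx.2, ← mem_singleton_iff.1 hx'.2]

theorem mem_sE {E : Set (V n)} {x₀ y : V n} {ρ : ℝ} (hρ : 0 < ρ) (hy : y ∈ sE E x₀ ρ) :
    ∃ x ∈ E, x = x₀ + ρ⁻¹ • y ∧ ‖y‖ = ρ * ‖x - x₀‖ := by
  refine ⟨_, hy, rfl, ?_⟩
  rw [add_sub_cancel_left, norm_smul, Real.norm_of_nonneg (inv_pos.2 hρ).le]
  field_simp

theorem SA.scaled {c C : ℝ} (h : SA n c C) (hC : 0 ≤ C) {E : Set (V n)} (hE : MeasurableSet E)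
    {τ : V n → ℝ} (hτ : Measurable τ) (x₀ : V n) (τ₀ : ℝ) {ρ R : ℝ} (hρ : 0 < ρ) (hR : 1 ≤ R)
    (hx : ∀ x ∈ E, ρ * ‖x - x₀‖ ≤ R ∧ ρ ^ 2 * |τ x - τ₀| ≤ R) :
    Phi E τ ρ ≤ ENNReal.ofReal (C * R ^ ((n : ℝ) / (n + 1)) *
      (ρ ^ n * volume.real E / R ^ n) ^ c * volume.real E) := by
  have h1 := Phi_scale E τ x₀ τ₀ hρ 1
  rw [mul_one] at h1
  have h2 := h R hR (sE E x₀ ρ) (measurableSet_sE hE _ _) (fun y hy => by
      obtain ⟨x, hxE, -, h3⟩ := mem_sE hρ hy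
      rw [mem_closedBall_zero_iff, h3]; exact (hx x hxE).1) _ (measurable_sT hτ x₀ τ₀ ρ)
    (fun y hy => by
      obtain ⟨x, hxE, rfl, -⟩ := mem_sE hρ hy
      rw [sT, abs_mul, abs_of_pos (pow_pos hρ 2)]; exact (hx _ hxE).2)
  have h3 : volume.real (sE E x₀ ρ) = ρ ^ n * volume.real E := by
    rw [measureReal_def, volume_sE E x₀ hρ, ENNReal.toReal_mul,
      ENNReal.toReal_ofReal (by positivity), measureReal_def]
  refine h1.trans ((mul_le_mul_right h2 _).trans (le_of_eq ?_))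
  rw [h3, ← ENNReal.ofReal_mul (by positivity)]
  congr 1; field_simp

theorem SA.scaled' {c C : ℝ} (h : SA n c C) (hc : 0 ≤ c) (hC : 0 ≤ C) {E : Set (V n)}
    (hE : MeasurableSet E)
    {τ : V n → ℝ} (hτ : Measurable τ) (x₀ : V n) (τ₀ : ℝ) {ρ R : ℝ} (hρ : 0 < ρ) (hR : 1 ≤ R)
    (hx : ∀ x ∈ E, ρ * ‖x - x₀‖ ≤ R ∧ ρ ^ 2 * |τ x - τ₀| ≤ R) :
    Phi E τ ρ ≤ ENNReal.ofReal (C * volume.real (closedBall (0 : V n) 1) ^ c *
      R ^ ((n : ℝ) / (n + 1))) * volume E := by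
  have hR0 : 0 < R := by linarith
  have hsub : E ⊆ closedBall x₀ (R / ρ) := fun x hxE => by
    rw [mem_closedBall, dist_eq_norm, le_div_iff₀ hρ, mul_comm]; exact (hx x hxE).1
  have hfin : volume E ≠ ∞ := ((measure_mono hsub).trans_lt measure_closedBall_lt_top).ne
  have h1 : volume.real E ≤ (R / ρ) ^ n * volume.real (closedBall (0 : V n) 1) := by
    have := Measure.addHaar_real_closedBall' (volume : Measure (V n)) x₀ (r := R / ρ)
      (by positivity)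
    simp only [finrank_euclideanSpace, Fintype.card_fin] at this
    rw [← this]
    exact measureReal_mono hsub measure_closedBall_lt_top.ne
  have h2 : ρ ^ n * volume.real E / R ^ n ≤ volume.real (closedBall (0 : V n) 1) := by
    rw [div_le_iff₀ (by positivity)]
    calc ρ ^ n * volume.real E ≤ ρ ^ n * ((R / ρ) ^ n * volume.real (closedBall (0 : V n) 1)) := by
          gcongr
      _ = _ := by rw [div_pow]; field_simp
  refine (h.scaled hC hE hτ x₀ τ₀ hρ hR hx).trans ?_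
  rw [← ofReal_measureReal hfin, ← ENNReal.ofReal_mul (by positivity)]
  refine ENNReal.ofReal_le_ofReal ?_
  have h0 : 0 ≤ volume.real E := measureReal_nonneg
  calc C * R ^ ((n : ℝ) / (n + 1)) * (ρ ^ n * volume.real E / R ^ n) ^ c * volume.real E
      ≤ C * R ^ ((n : ℝ) / (n + 1)) * volume.real (closedBall (0 : V n) 1) ^ c *
        volume.real E := by gcongr
    _ = _ := by ring

theorem norm_le_of_coord (x : V n) {r : ℝ} (hr : 0 ≤ r) (h : ∀ i, |x i| ≤ r) : ‖x‖ ≤ n * r := by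
  rw [EuclideanSpace.norm_eq, Real.sqrt_le_left (by positivity)]
  calc ∑ i, ‖x i‖ ^ 2 ≤ ∑ _i : Fin n, r ^ 2 := by
        gcongr with i; exact h i
    _ = n * r ^ 2 := by simp
    _ ≤ (n * r) ^ 2 := by
        rw [mul_pow]
        gcongr
        exact_mod_cast Nat.le_self_pow two_ne_zero n

theorem rpow_exp_le {x : ℝ} (hx : 1 ≤ x) : x ^ ((n : ℝ) / (n + 1)) ≤ x := by
  calc x ^ ((n : ℝ) / (n + 1)) ≤ x ^ (1 : ℝ) := by
        refine Real.rpow_le_rpow_of_exponent_le hx ?_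
        rw [div_le_one (by positivity)]; linarith
    _ = x := Real.rpow_one x

/-- **Window gain**: no constraint on the spatial size. -/
theorem SA.window {c C : ℝ} (h : SA n c C) (hc : 0 ≤ c) (hC : 0 ≤ C) :
    ∃ C' : ℝ≥0∞, C' ≠ ∞ ∧ ∀ ρ : ℝ, 1 ≤ ρ → ∀ E : Set (V n), MeasurableSet E →
      ∀ r : ℝ, E ⊆ closedBall 0 r → ∀ τ : V n → ℝ, Measurable τ → (∀ x ∈ E, |τ x| ≤ ρ) →
      Phi E τ 1 ≤ C' * ENNReal.ofReal (ρ ^ ((n : ℝ) / (n + 1))) * volume E := by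
  classical
  obtain ⟨C₁, hC₁, hloc⟩ := spaceLoc n
  set K : ℝ := C * volume.real (closedBall (0 : V n) 1) ^ c * (2 * n + 4) with hK
  refine ⟨C₁ * ENNReal.ofReal K, by finiteness, fun ρ hρ E hE r hEr τ hτ hτρ => ?_⟩
  have hρ0 : 0 < ρ := by linarith
  have hfin : volume E ≠ ∞ := ((measure_mono hEr).trans_lt measure_closedBall_lt_top).ne
  have hs : ∀ x ∈ E, cube ρ x ∈ Fintype.piFinset fun _ : Fin n => Finset.Icc (-⌈r⌉) ⌈r⌉ := by
    intro x hx
    rw [Fintype.mem_piFinset]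
    intro i
    have h1 : |x i| ≤ r := (abs_coord_le x i).trans (mem_closedBall_zero_iff.1 (hEr hx))
    have h2 : |ρ⁻¹ * x i| ≤ r := by
      rw [abs_mul, abs_of_pos (inv_pos.2 hρ0)]
      exact (mul_le_of_le_one_left (abs_nonneg _) (inv_le_one_of_one_le₀ hρ)).trans h1
    have h3 := Int.le_ceil r
    rw [Finset.mem_Icc, cube]
    constructor
    · rw [Int.le_floor]; push_cast; linarith [(abs_le.1 h2).1]
    · have : (⌊ρ⁻¹ * x i⌋ : ℝ) ≤ ⌈r⌉ := (Int.floor_le _).trans ((abs_le.1 h2).2.trans h3)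
      exact_mod_cast this
  refine (hloc ρ hρ E hE hfin τ hτ hτρ _ hs).trans ?_
  have hq : ∀ q : Fin n → ℤ, Phi (E ∩ cube ρ ⁻¹' {q}) τ 2 ≤
      ENNReal.ofReal K * ENNReal.ofReal (ρ ^ ((n : ℝ) / (n + 1))) *
        volume (E ∩ cube ρ ⁻¹' {q}) := by
    intro q
    have hn0 : (0 : ℝ) ≤ n := Nat.cast_nonneg n
    have hR : 1 ≤ (2 * n + 4) * ρ := by nlinarith
    refine (h.scaled' hc hC (hE.inter (measurableSet_cube ρ q)) hτ
      (WithLp.toLp 2 fun i => ρ * q i) 0 two_pos hR fun x hx => ⟨?_, ?_⟩).trans ?_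
    · have h1 : ‖x - WithLp.toLp 2 fun i => ρ * q i‖ ≤ n * ρ := by
        refine norm_le_of_coord _ hρ0.le fun i => ?_
        have h2 : ⌊ρ⁻¹ * x i⌋ = q i := congrFun (mem_singleton_iff.1 hx.2) i
        have h3 := Int.floor_le (ρ⁻¹ * x i)
        have h4 := Int.lt_floor_add_one (ρ⁻¹ * x i)
        rw [h2] at h3 h4
        rw [le_inv_mul_iff₀ hρ0] at h3
        rw [inv_mul_lt_iff₀ hρ0] at h4
        simp only [PiLp.sub_apply]
        rw [abs_le]; constructor <;> nlinarith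
      nlinarith
    · have := hτρ x hx.1
      rw [sub_zero]; nlinarith
    · gcongr
      rw [← ENNReal.ofReal_mul (by positivity)]
      refine ENNReal.ofReal_le_ofReal ?_
      rw [Real.mul_rpow (by positivity) hρ0.le, hK]
      have := rpow_exp_le (n := n) (x := 2 * n + 4) (by linarith)
      calc _ ≤ C * volume.real (closedBall (0 : V n) 1) ^ c *
            ((2 * n + 4) * ρ ^ ((n : ℝ) / (n + 1))) := by gcongr
        _ = _ := by ring
  calc C₁ * ∑ q ∈ Fintype.piFinset fun _ : Fin n => Finset.Icc (-⌈r⌉) ⌈r⌉,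
        Phi (E ∩ cube ρ ⁻¹' {q}) τ 2
      ≤ C₁ * ∑ q ∈ Fintype.piFinset fun _ : Fin n => Finset.Icc (-⌈r⌉) ⌈r⌉,
        ENNReal.ofReal K * ENNReal.ofReal (ρ ^ ((n : ℝ) / (n + 1))) *
          volume (E ∩ cube ρ ⁻¹' {q}) := by gcongr with q; exact hq q
    _ ≤ C₁ * (ENNReal.ofReal K * ENNReal.ofReal (ρ ^ ((n : ℝ) / (n + 1))) * volume E) := by
        rw [← Finset.mul_sum]
        gcongr
        exact sum_vol_fibres_le hE _ (measurableSet_cube ρ) _
    _ = _ := by ring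

/-- small set gain in a time window of length `1 / N` -/
theorem SA.d1 {c C : ℝ} (h : SA n c C) (hc : 0 ≤ c) (hC : 0 ≤ C) {N : ℝ} (hN : 1 ≤ N)
    {E : Set (V n)} (hE : MeasurableSet E) (hE1 : E ⊆ closedBall 0 1) {τ : V n → ℝ}
    (hτ : Measurable τ) (τ₀ : ℝ) (hw : ∀ x ∈ E, |τ x - τ₀| ≤ N⁻¹) :
    Phi E τ (3 * N) ≤ ENNReal.ofReal (9 * C * N ^ ((n : ℝ) / (n + 1)) * volume.real E ^ c) *
      volume E := by
  have hN0 : 0 < N := by linarith
  have hfin : volume E ≠ ∞ := ((measure_mono hE1).trans_lt measure_closedBall_lt_top).ne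
  refine (h.scaled hC hE hτ 0 τ₀ (ρ := 3 * N) (R := 9 * N) (by positivity) (by linarith)
    fun x hx => ⟨?_, ?_⟩).trans ?_
  · have := mem_closedBall_zero_iff.1 (hE1 hx)
    rw [sub_zero]; nlinarith
  · calc (3 * N) ^ 2 * |τ x - τ₀| ≤ (3 * N) ^ 2 * N⁻¹ := by gcongr; exact hw x hx
      _ = 9 * N := by field_simp; norm_num
  · rw [← ofReal_measureReal hfin, ← ENNReal.ofReal_mul (by positivity)]
    refine ENNReal.ofReal_le_ofReal ?_
    have h0 : 0 ≤ volume.real E := measureReal_nonneg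
    have h1 : (3 * N) ^ n * volume.real E / (9 * N) ^ n ≤ volume.real E := by
      rw [div_le_iff₀ (by positivity), mul_comm]
      gcongr; norm_num
    have h2 := rpow_exp_le (n := n) (x := 9) (by norm_num)
    rw [Real.mul_rpow (by norm_num) hN0.le]
    calc _ ≤ C * (9 * N ^ ((n : ℝ) / (n + 1))) * volume.real E ^ c * volume.real E := by gcongr
      _ = _ := by ring

/-- window gain at frequency `N` -/
theorem SA.d2 {c C : ℝ} (h : SA n c C) (hc : 0 ≤ c) (hC : 0 ≤ C) :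
    ∃ C' : ℝ≥0∞, C' ≠ ∞ ∧ ∀ N w : ℝ, 0 < N → 1 ≤ N ^ 2 * w →
      ∀ E : Set (V n), MeasurableSet E → E ⊆ closedBall 0 1 → ∀ τ : V n → ℝ, Measurable τ →
      ∀ τ₀ : ℝ, (∀ x ∈ E, |τ x - τ₀| ≤ w) →
      Phi E τ (3 * N) ≤ C' * ENNReal.ofReal ((N ^ 2 * w) ^ ((n : ℝ) / (n + 1))) * volume E := by
  obtain ⟨C₁, hC₁, hw⟩ := h.window hc hC
  refine ⟨C₁ * 9, by finiteness, fun N w hN hNw E hE hE1 τ hτ τ₀ hτw => ?_⟩
  have hρ : 0 < 3 * N := by positivity
  have h1 := Phi_scale E τ 0 τ₀ hρ 1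
  rw [mul_one] at h1
  have h2 := hw (9 * (N ^ 2 * w)) (by linarith) (sE E 0 (3 * N)) (measurableSet_sE hE _ _) (3 * N)
    (fun y hy => by
      obtain ⟨x, hxE, -, h3⟩ := mem_sE hρ hy
      have := mem_closedBall_zero_iff.1 (hE1 hxE)
      rw [mem_closedBall_zero_iff, h3, sub_zero]; nlinarith) _ (measurable_sT hτ 0 τ₀ (3 * N))
    (fun y hy => by
      obtain ⟨x, hxE, rfl, -⟩ := mem_sE hρ hy
      rw [sT, abs_mul, abs_of_pos (pow_pos hρ 2)]
      calc _ ≤ (3 * N) ^ 2 * w := by gcongr; exact hτw _ hxE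
        _ = _ := by ring)
  refine h1.trans ((mul_le_mul_right h2 _).trans ?_)
  rw [volume_sE E 0 hρ, Real.mul_rpow (by norm_num) (by linarith),
    ENNReal.ofReal_mul (by positivity)]
  have h3 : ENNReal.ofReal (((3 * N) ^ n)⁻¹) * ENNReal.ofReal ((3 * N) ^ n) = 1 := by
    rw [← ENNReal.ofReal_mul (by positivity), inv_mul_cancel₀ (by positivity), ENNReal.ofReal_one]
  have h4 : ENNReal.ofReal ((9 : ℝ) ^ ((n : ℝ) / (n + 1))) ≤ 9 := by
    have := ENNReal.ofReal_le_ofReal (rpow_exp_le (n := n) (x := 9) (by norm_num))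
    simpa using this
  calc _ = (ENNReal.ofReal (((3 * N) ^ n)⁻¹) * ENNReal.ofReal ((3 * N) ^ n)) *
        (C₁ * ENNReal.ofReal ((9 : ℝ) ^ ((n : ℝ) / (n + 1))) *
          ENNReal.ofReal ((N ^ 2 * w) ^ ((n : ℝ) / (n + 1))) * volume E) := by ring
    _ ≤ _ := by rw [h3, one_mul]; gcongr

end Crest.Agent.N76.Red
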