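import Crest.Agent.N76.Red.StepB

/-! # Row 76: summation over all frequency scales (helper14). -/

set_option autoImplicit false

open MeasureTheory Set Metric
open scoped ENNReal RealInnerProductSpace

namespace Crest.Agent.N76.Red

variable {n : ℕ}

theorem geom_le {q : ℝ} (hq0 : 0 ≤ q) (hq : q < 1) (K : ℕ) :
    ∑ i ∈ Finset.range K, q ^ i ≤ (1 - q)⁻¹ := by
  rw [← tsum_geometric_of_lt_one hq0 hq]
  exact (summable_geometric_of_lt_one hq0 hq).sum_le_tsum _ fun i _ => by positivity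

/-- the pointwise summation lemma -/
theorem seq_sum {p : ℕ → ℝ} (hp : Antitone p) (hp0 : ∀ k, 0 ≤ p k) {ℓ : ℕ → ℕ}
    (hℓ : ∀ k, ℓ k ≤ k) {q θ : ℝ} (hq0 : 0 ≤ q) (hq : q < 1) (hθ : θ < 1)
    (h : ∀ k, ℓ k < k → p (k + (ℓ k + 1)) ≤ θ * p k) (K : ℕ) :
    ∑ k ∈ Finset.range K, q ^ ℓ k * p k ≤ (1 - q)⁻¹ * (1 + (1 - θ)⁻¹) * p 0 := by
  have hθ' : 0 < 1 - θ := by linarith
  have hd : ∀ i, 0 ≤ p i - p (i + 1) := fun i => sub_nonneg.2 (hp (Nat.le_succ i))
  have h1 : ∀ k ∈ Finset.range K, q ^ ℓ k * p k ≤ q ^ k * p 0 +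
      (1 - θ)⁻¹ * ∑ i ∈ Finset.range K, q ^ i * (p (k + i) - p (k + i + 1)) := by
    intro k hk
    have hS : 0 ≤ ∑ i ∈ Finset.range K, q ^ i * (p (k + i) - p (k + i + 1)) :=
      Finset.sum_nonneg fun i _ => mul_nonneg (by positivity) (hd _)
    rcases (hℓ k).eq_or_lt with he | hlt
    · rw [he]
      have : q ^ k * p k ≤ q ^ k * p 0 := by gcongr; exact hp (Nat.zero_le k)
      have : 0 ≤ (1 - θ)⁻¹ * ∑ i ∈ Finset.range K, q ^ i * (p (k + i) - p (k + i + 1)) := by
        positivity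
      linarith
    · have h2 : (1 - θ) * p k ≤ ∑ i ∈ Finset.range (ℓ k + 1), (p (k + i) - p (k + i + 1)) := by
        have := Finset.sum_range_sub' (fun i => p (k + i)) (ℓ k + 1)
        simp only [add_zero] at this
        simp only [add_assoc]
        rw [this]; linarith [h k hlt]
      have h3 : q ^ ℓ k * ((1 - θ) * p k) ≤
          ∑ i ∈ Finset.range K, q ^ i * (p (k + i) - p (k + i + 1)) := by
        calc q ^ ℓ k * ((1 - θ) * p k)
            ≤ q ^ ℓ k * ∑ i ∈ Finset.range (ℓ k + 1), (p (k + i) - p (k + i + 1)) := by gcongr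
          _ ≤ ∑ i ∈ Finset.range (ℓ k + 1), q ^ i * (p (k + i) - p (k + i + 1)) := by
              rw [Finset.mul_sum]
              refine Finset.sum_le_sum fun i hi => mul_le_mul_of_nonneg_right ?_ (hd _)
              exact pow_le_pow_of_le_one hq0 hq.le (Nat.lt_succ_iff.1 (Finset.mem_range.1 hi))
          _ ≤ _ := by
              refine Finset.sum_le_sum_of_subset_of_nonneg (Finset.range_subset_range.2 ?_)
                fun i _ _ => mul_nonneg (by positivity) (hd _)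
              have := Finset.mem_range.1 hk
              omega
      have h4 : q ^ ℓ k * p k ≤
          (1 - θ)⁻¹ * ∑ i ∈ Finset.range K, q ^ i * (p (k + i) - p (k + i + 1)) := by
        rw [le_inv_mul_iff₀ hθ']; linarith
      have : 0 ≤ q ^ k * p 0 := mul_nonneg (by positivity) (hp0 0)
      linarith
  refine (Finset.sum_le_sum h1).trans ?_
  rw [Finset.sum_add_distrib, ← Finset.sum_mul, ← Finset.mul_sum, Finset.sum_comm]
  have h5 : ∑ i ∈ Finset.range K, ∑ k ∈ Finset.range K, q ^ i * (p (k + i) - p (k + i + 1)) ≤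
      (∑ i ∈ Finset.range K, q ^ i) * p 0 := by
    rw [Finset.sum_mul]
    refine Finset.sum_le_sum fun i _ => ?_
    rw [← Finset.mul_sum]
    gcongr
    have := Finset.sum_range_sub' (fun k => p (k + i)) K
    simp only [add_right_comm _ 1 i, zero_add] at this
    rw [this]
    linarith [hp0 (K + i), hp (Nat.zero_le i)]
  have h6 := geom_le hq0 hq K
  have h7 := hp0 0
  calc _ ≤ (1 - q)⁻¹ * p 0 + (1 - θ)⁻¹ * ((1 - q)⁻¹ * p 0) := by
        gcongr
        exact h5.trans (by gcongr)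
    _ = _ := by ring

theorem sum_lintegral_fibres_le {ι : Type*} {E : Set (V n)} (hE : MeasurableSet E) (ℓ : V n → ι)
    (hℓ : ∀ i, MeasurableSet (ℓ ⁻¹' {i})) (s : Finset ι) (f : V n → ℝ≥0∞) :
    ∑ i ∈ s, ∫⁻ x in E ∩ ℓ ⁻¹' {i}, f x ≤ ∫⁻ x in E, f x := by
  rw [← lintegral_biUnion_finset _ fun i _ => hE.inter (hℓ i)]
  · exact lintegral_mono_set (iUnion₂_subset fun i _ => inter_subset_left)
  · intro i _ j _ hij
    refine Set.disjoint_left.2 fun x hx hx' => hij ?_
    rw [← mem_singleton_iff.1 hx.2, ← mem_singleton_iff.1 hx'.2]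

/-- the dyadic time node of level `k` -/
def node (E : Set (V n)) (τ : V n → ℝ) (k : ℕ) (j : ℤ) : Set (V n) :=
  E ∩ (fun x => ⌊(2 : ℝ) ^ k * τ x⌋) ⁻¹' {j}

/-- mass of the node of `x` -/
noncomputable def mass (E : Set (V n)) (τ : V n → ℝ) (k : ℕ) (x : V n) : ℝ :=
  volume.real (node E τ k ⌊(2 : ℝ) ^ k * τ x⌋)

open Classical in
/-- for how many levels the node of `x` keeps more than half of the mass -/
noncomputable def ell (E : Set (V n)) (τ : V n → ℝ) (k : ℕ) (x : V n) : ℕ :=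
  Nat.findGreatest (fun l => mass E τ k x / 2 < mass E τ (k + l) x) k

theorem floor_nest {a b : ℝ} (k l : ℕ) (h : ⌊(2 : ℝ) ^ (k + l) * a⌋ = ⌊(2 : ℝ) ^ (k + l) * b⌋) :
    ⌊(2 : ℝ) ^ k * a⌋ = ⌊(2 : ℝ) ^ k * b⌋ := by
  have : ∀ t : ℝ, ⌊(2 : ℝ) ^ k * t⌋ = ⌊(2 : ℝ) ^ (k + l) * t⌋ / ((2 ^ l : ℕ) : ℤ) := by
    intro t
    rw [← Int.floor_div_natCast]
    congr 1; push_cast; field_simp; ring
  rw [this a, this b, h]

theorem measurableSet_node {E : Set (V n)} (hE : MeasurableSet E) {τ : V n → ℝ}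
    (hτ : Measurable τ) (k : ℕ) (j : ℤ) : MeasurableSet (node E τ k j) :=
  hE.inter (measurableSet_floor_fibre hτ _ j)

theorem node_subset (E : Set (V n)) (τ : V n → ℝ) (k l : ℕ) (x : V n) :
    node E τ (k + l) ⌊(2 : ℝ) ^ (k + l) * τ x⌋ ⊆ node E τ k ⌊(2 : ℝ) ^ k * τ x⌋ :=
  fun _ hy => ⟨hy.1, floor_nest k l hy.2⟩

theorem measurable_mass (E : Set (V n)) {τ : V n → ℝ} (hτ : Measurable τ) (k : ℕ) :
    Measurable (mass E τ k) :=
  (measurable_of_countable fun j : ℤ => volume.real (node E τ k j)).comp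
    (Int.measurable_floor.comp (hτ.const_mul _))

theorem measurable_ell (E : Set (V n)) {τ : V n → ℝ} (hτ : Measurable τ) (k : ℕ) :
    Measurable (ell E τ k) := by
  classical
  exact measurable_findGreatest fun l _ =>
    measurableSet_lt ((measurable_mass E hτ k).div_const 2) (measurable_mass E hτ (k + l))

theorem mass_antitone {E : Set (V n)} (hfin : volume E ≠ ∞) (τ : V n → ℝ) (x : V n) :
    Antitone fun k => mass E τ k x := by
  refine antitone_nat_of_succ_le fun k => ?_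
  exact measureReal_mono (node_subset E τ k 1 x)
    ((measure_mono inter_subset_left).trans_lt hfin.lt_top).ne

theorem same_node {E : Set (V n)} (hE : MeasurableSet E) (hfin : volume E ≠ ∞) {τ : V n → ℝ}
    (hτ : Measurable τ) {k l : ℕ} {j : ℤ} {x y : V n} (hx : x ∈ node E τ k j)
    (hy : y ∈ node E τ k j) (h1 : mass E τ k x / 2 < mass E τ (k + l) x)
    (h2 : mass E τ k y / 2 < mass E τ (k + l) y) : |τ x - τ y| ≤ ((2 : ℝ) ^ (k + l))⁻¹ := by
  have hx' : ⌊(2 : ℝ) ^ k * τ x⌋ = j := hx.2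
  have hy' : ⌊(2 : ℝ) ^ k * τ y⌋ = j := hy.2
  have he : ⌊(2 : ℝ) ^ (k + l) * τ x⌋ = ⌊(2 : ℝ) ^ (k + l) * τ y⌋ := by
    by_contra hne
    have hfin' : ∀ i j, volume (node E τ i j) ≠ ∞ := fun i j =>
      ((measure_mono inter_subset_left).trans_lt hfin.lt_top).ne
    have hd : Disjoint (node E τ (k + l) ⌊(2 : ℝ) ^ (k + l) * τ x⌋)
        (node E τ (k + l) ⌊(2 : ℝ) ^ (k + l) * τ y⌋) :=
      Set.disjoint_left.2 fun z hz hz' => hne ((mem_singleton_iff.1 hz.2).symm.trans hz'.2)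
    have h3 := measureReal_union hd (measurableSet_node hE hτ _ _) (hfin' _ _) (hfin' _ _)
    have h4 : volume.real (node E τ (k + l) ⌊(2 : ℝ) ^ (k + l) * τ x⌋ ∪
        node E τ (k + l) ⌊(2 : ℝ) ^ (k + l) * τ y⌋) ≤ volume.real (node E τ k j) := by
      refine measureReal_mono (union_subset ?_ ?_) (hfin' _ _)
      · rw [← hx']; exact node_subset E τ k l x
      · rw [← hy']; exact node_subset E τ k l y
    unfold mass at h1 h2
    rw [hx'] at h1; rw [hy'] at h2
    linarith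
  have h5 := Int.abs_sub_lt_one_of_floor_eq_floor he
  rw [← mul_sub, abs_mul, abs_of_pos (by positivity)] at h5
  rw [← one_div, le_div_iff₀ (by positivity), mul_comm]
  exact h5.le

theorem SA.piece {c C : ℝ} (h : SA n c C) (hc : 0 ≤ c) (hC : 0 ≤ C) :
    ∃ C' : ℝ≥0∞, C' ≠ ∞ ∧ ∀ q : ℝ, q = (2 : ℝ) ^ (-((n : ℝ) / (n + 1) / 4)) →
      ∀ E : Set (V n), MeasurableSet E → E ⊆ closedBall 0 1 → ∀ τ : V n → ℝ, Measurable τ →
      ∀ (k l : ℕ) (j : ℤ),
      ENNReal.ofReal ((q ^ l)⁻¹) * Phi (node E τ k j ∩ ell E τ k ⁻¹' {l}) τ (3 * 2 ^ k) ≤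
        C' * ENNReal.ofReal (((2 : ℝ) ^ k) ^ ((n : ℝ) / (n + 1))) *
          ∫⁻ x in node E τ k j ∩ ell E τ k ⁻¹' {l},
            ENNReal.ofReal (q ^ ell E τ k x * mass E τ k x ^ (c / 2)) := by
  classical
  obtain ⟨C₂, hC₂, hd2⟩ := h.d2 hc hC
  refine ⟨max (ENNReal.ofReal (9 * C)) C₂, by finiteness, fun q hq E hE hE1 τ hτ k l j => ?_⟩
  have hq0 : 0 < q := by rw [hq]; positivity
  have hfin : volume E ≠ ∞ := ((measure_mono hE1).trans_lt measure_closedBall_lt_top).ne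
  set A := node E τ k j ∩ ell E τ k ⁻¹' {l} with hA
  have mA : MeasurableSet A :=
    (measurableSet_node hE hτ k j).inter (measurable_ell E hτ k (measurableSet_singleton l))
  rcases eq_or_ne (volume A) 0 with h0 | h0
  · rw [Phi_eq_zero h0, mul_zero]; exact zero_le
  obtain ⟨x₁, hx₁⟩ := nonempty_of_measure_ne_zero h0
  set m : ℝ := volume.real (node E τ k j) with hm
  have hJfin : volume (node E τ k j) ≠ ∞ :=
    ((measure_mono inter_subset_left).trans_lt hfin.lt_top).ne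
  have hm0 : 0 < m := ENNReal.toReal_pos
    (fun h' => h0 (measure_mono_null inter_subset_left h')) hJfin
  have hmass : ∀ x ∈ A, mass E τ k x = m := fun x hx => by
    have : ⌊(2 : ℝ) ^ k * τ x⌋ = j := hx.1.2
    rw [mass, this]
  have hell : ∀ x ∈ A, ell E τ k x = l := fun x hx => hx.2
  have hlk : l ≤ k := by rw [← hell x₁ hx₁]; exact Nat.findGreatest_le k
  have hP : ∀ x ∈ A, mass E τ k x / 2 < mass E τ (k + l) x := fun x hx => by
    rw [← hell x hx]
    refine Nat.findGreatest_spec (P := fun l => mass E τ k x / 2 < mass E τ (k + l) x)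
      (Nat.zero_le k) ?_
    simp only [add_zero, hmass x hx]; linarith
  have hw : ∀ x ∈ A, |τ x - τ x₁| ≤ ((2 : ℝ) ^ (k + l))⁻¹ := fun x hx =>
    same_node hE hfin hτ hx.1 hx₁.1 (hP x hx) (hP x₁ hx₁)
  have hA1 : A ⊆ closedBall 0 1 := fun x hx => hE1 hx.1.1
  have hI : ∫⁻ x in A, ENNReal.ofReal (q ^ ell E τ k x * mass E τ k x ^ (c / 2)) =
      ENNReal.ofReal (q ^ l * m ^ (c / 2)) * volume A := by
    rw [← setLIntegral_const]
    exact setLIntegral_congr_fun mA fun x hx => by simp only [hmass x hx, hell x hx]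
  set a : ℝ := (n : ℝ) / (n + 1) with ha
  have key : Phi A τ (3 * 2 ^ k) ≤ max (ENNReal.ofReal (9 * C)) C₂ *
      ENNReal.ofReal (((2 : ℝ) ^ k) ^ a * (q ^ l * q ^ l * m ^ (c / 2))) * volume A := by
    rcases le_total (m ^ (c / 2)) (q ^ l * q ^ l) with hcase | hcase
    · refine (h.d1 hc hC (N := 2 ^ k) (one_le_pow₀ one_le_two) mA hA1 hτ (τ x₁)
        fun x hx => (hw x hx).trans ?_).trans ?_
      · exact inv_anti₀ (by positivity) (pow_le_pow_right₀ one_le_two (Nat.le_add_right k l))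
      · gcongr
        rw [mul_assoc, ENNReal.ofReal_mul (by positivity)]
        gcongr
        · exact le_max_left _ _
        · calc volume.real A ^ c ≤ m ^ c := by
                gcongr; exact measureReal_mono inter_subset_left hJfin
            _ = m ^ (c / 2) * m ^ (c / 2) := by rw [← Real.rpow_add hm0]; congr 1; ring
            _ ≤ _ := by gcongr
    · have e1 : ((2 : ℝ) ^ k) ^ 2 * ((2 : ℝ) ^ (k + l))⁻¹ = 2 ^ k * ((2 : ℝ) ^ l)⁻¹ := by
        rw [pow_add]; field_simp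
      refine (hd2 (2 ^ k) _ (by positivity) ?_ A mA hA1 τ hτ (τ x₁) hw).trans ?_
      · rw [e1, ← div_eq_mul_inv, one_le_div (by positivity)]
        exact pow_le_pow_right₀ one_le_two hlk
      · rw [e1, Real.mul_rpow (by positivity) (by positivity)]
        have e2 : (((2 : ℝ) ^ l)⁻¹) ^ a = q ^ l * q ^ l * (q ^ l * q ^ l) := by
          rw [hq, ← Real.rpow_natCast, ← Real.rpow_natCast, ← Real.rpow_neg (by norm_num),
            ← Real.rpow_mul (by norm_num), ← Real.rpow_mul (by norm_num),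
            ← Real.rpow_add (by norm_num), ← Real.rpow_add (by norm_num)]
          congr 1; ring
        rw [e2]
        gcongr
        exact le_max_right _ _
  rw [hI]
  refine (mul_le_mul_right key _).trans (le_of_eq ?_)
  have e3 : ENNReal.ofReal ((q ^ l)⁻¹) *
      ENNReal.ofReal (((2 : ℝ) ^ k) ^ a * (q ^ l * q ^ l * m ^ (c / 2))) =
      ENNReal.ofReal (((2 : ℝ) ^ k) ^ a) * ENNReal.ofReal (q ^ l * m ^ (c / 2)) := by
    rw [← ENNReal.ofReal_mul (by positivity), ← ENNReal.ofReal_mul (by positivity)]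
    congr 1; field_simp
  calc _ = max (ENNReal.ofReal (9 * C)) C₂ * (ENNReal.ofReal ((q ^ l)⁻¹) *
      ENNReal.ofReal (((2 : ℝ) ^ k) ^ a * (q ^ l * q ^ l * m ^ (c / 2)))) * volume A := by ring
    _ = _ := by rw [e3]; ring

/-- **Step E**: the sum over all scales. -/
theorem stepE (hn : 1 ≤ n) (hSS : SS n) : ∃ C' : ℝ≥0∞, C' ≠ ∞ ∧
    ∀ E : Set (V n), MeasurableSet E → E ⊆ closedBall 0 1 → ∀ τ : V n → ℝ, Measurable τ →
      ∀ (K : ℕ) (s : ℕ → Finset ℤ),
      ∑ k ∈ Finset.range K, ENNReal.ofReal ((((2 : ℝ) ^ k) ^ ((n : ℝ) / (n + 1)))⁻¹) *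
        ∑ j ∈ s k, Phi (node E τ k j) τ (3 * 2 ^ k) ≤ C' * volume E := by
  classical
  obtain ⟨c, C, hc, -, hC, h⟩ := stepA hSS
  obtain ⟨C₁, hC₁, hp⟩ := SA.piece (c := c) (C := C) h hc.le hC.le
  set a : ℝ := (n : ℝ) / (n + 1) with ha
  have ha0 : 0 < a := by have : (0 : ℝ) < n := by exact_mod_cast hn
                         positivity
  set q : ℝ := (2 : ℝ) ^ (-(a / 4)) with hq
  have hq0 : 0 < q := by positivity
  have hq1 : q < 1 := Real.rpow_lt_one_of_one_lt_of_neg one_lt_two (by linarith)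
  set θ : ℝ := (1 / 2 : ℝ) ^ (c / 2) with hθ
  have hθ1 : θ < 1 := Real.rpow_lt_one (by norm_num) (by norm_num) (by linarith)
  set ω : ℝ := volume.real (closedBall (0 : V n) 1) with hω
  refine ⟨ENNReal.ofReal ((1 - q)⁻¹) * C₁ *
    ENNReal.ofReal ((1 - q)⁻¹ * (1 + (1 - θ)⁻¹) * ω ^ (c / 2)), by finiteness,
    fun E hE hE1 τ hτ K s => ?_⟩
  have hfin : volume E ≠ ∞ := ((measure_mono hE1).trans_lt measure_closedBall_lt_top).ne
  set f : ℕ → V n → ℝ := fun k x => q ^ ell E τ k x * mass E τ k x ^ (c / 2) with hf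
  have hm0 : ∀ k x, 0 ≤ mass E τ k x := fun k x => measureReal_nonneg
  have hf0 : ∀ k x, 0 ≤ f k x := fun k x => by
    have := hm0 k x
    positivity
  have mf : ∀ k, Measurable (f k) := fun k =>
    ((measurable_of_countable fun l : ℕ => q ^ l).comp (measurable_ell E hτ k)).mul
      ((measurable_mass E hτ k).pow_const _)
  have h1 : ∀ k j, Phi (node E τ k j) τ (3 * 2 ^ k) ≤ ENNReal.ofReal ((1 - q)⁻¹) * C₁ *
      ENNReal.ofReal (((2 : ℝ) ^ k) ^ a) * ∫⁻ x in node E τ k j, ENNReal.ofReal (f k x) := by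
    intro k j
    have mJ := measurableSet_node hE hτ k j
    have mℓ : ∀ l, MeasurableSet (ell E τ k ⁻¹' {l}) := fun l =>
      measurable_ell E hτ k (measurableSet_singleton l)
    refine (Phi_le_sum mJ ((measure_mono inter_subset_left).trans_lt hfin.lt_top).ne hτ _
      (ell E τ k) mℓ (Finset.range (k + 1))
      (fun x _ => Finset.mem_range.2 (Nat.lt_succ_of_le (Nat.findGreatest_le k)))
      (fun l => (q ^ l)⁻¹) fun l _ => by positivity).trans ?_
    simp only [inv_inv]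
    rw [mul_assoc, mul_assoc]
    refine mul_le_mul' (ENNReal.ofReal_le_ofReal (geom_le hq0.le hq1 _)) ?_
    refine (Finset.sum_le_sum fun l _ => hp q rfl E hE hE1 τ hτ k l j).trans ?_
    rw [← Finset.mul_sum, mul_assoc]
    gcongr
    exact sum_lintegral_fibres_le mJ _ mℓ _ _
  have h2 : ∀ k, ENNReal.ofReal ((((2 : ℝ) ^ k) ^ a)⁻¹) *
      ∑ j ∈ s k, Phi (node E τ k j) τ (3 * 2 ^ k) ≤
      ENNReal.ofReal ((1 - q)⁻¹) * C₁ * ∫⁻ x in E, ENNReal.ofReal (f k x) := by
    intro k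
    have e : ENNReal.ofReal ((((2 : ℝ) ^ k) ^ a)⁻¹) * ENNReal.ofReal (((2 : ℝ) ^ k) ^ a) = 1 := by
      rw [← ENNReal.ofReal_mul (by positivity), inv_mul_cancel₀ (by positivity),
        ENNReal.ofReal_one]
    calc _ ≤ ENNReal.ofReal ((((2 : ℝ) ^ k) ^ a)⁻¹) * (ENNReal.ofReal ((1 - q)⁻¹) * C₁ *
          ENNReal.ofReal (((2 : ℝ) ^ k) ^ a) * ∫⁻ x in E, ENNReal.ofReal (f k x)) := by
          gcongr
          refine (Finset.sum_le_sum fun j _ => h1 k j).trans ?_
          rw [← Finset.mul_sum]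
          gcongr
          exact sum_lintegral_fibres_le hE _ (measurableSet_floor_fibre hτ _) _ _
      _ = (ENNReal.ofReal ((((2 : ℝ) ^ k) ^ a)⁻¹) * ENNReal.ofReal (((2 : ℝ) ^ k) ^ a)) *
          (ENNReal.ofReal ((1 - q)⁻¹) * C₁ * ∫⁻ x in E, ENNReal.ofReal (f k x)) := by ring
      _ = _ := by rw [e, one_mul]
  refine (Finset.sum_le_sum fun k _ => h2 k).trans ?_
  rw [← Finset.mul_sum, mul_assoc _ _ (volume E), ← setLIntegral_const,
    ← lintegral_finsetSum _ fun k _ => (mf k).ennreal_ofReal]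
  gcongr with x
  rw [← ENNReal.ofReal_sum_of_nonneg fun k _ => hf0 k x]
  refine ENNReal.ofReal_le_ofReal ?_
  have h3 := seq_sum (p := fun k => mass E τ k x ^ (c / 2)) (ℓ := fun k => ell E τ k x)
    (fun i j hij => Real.rpow_le_rpow (hm0 _ _) (mass_antitone hfin τ x hij) (by linarith))
    (fun k => Real.rpow_nonneg (hm0 k x) _) (fun k => Nat.findGreatest_le k) hq0.le hq1 hθ1
    (fun k hk => by
      have h4 := Nat.findGreatest_is_greatest
        (P := fun l => mass E τ k x / 2 < mass E τ (k + l) x) (Nat.lt_succ_self _) hk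
      rw [hθ, ← Real.mul_rpow (by norm_num) (hm0 _ _)]
      refine Real.rpow_le_rpow (hm0 _ _) ?_ (by linarith)
      have h5 := not_lt.1 h4
      change mass E τ (k + (ell E τ k x + 1)) x ≤ _ at h5
      linarith) K
  refine h3.trans ?_
  have : 0 < 1 - q := by linarith
  have : 0 < 1 - θ := by linarith
  have := hm0 0 x
  gcongr
  exact measureReal_mono (inter_subset_left.trans hE1) measure_closedBall_lt_top.ne

end Crest.Agent.N76.Red
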