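import Crest.Agent.N76.Red.Basic

/-! # Row 76: thickening by an average of exponentials (helper14). -/

set_option autoImplicit false

open MeasureTheory Set Metric
open scoped ENNReal RealInnerProductSpace

namespace Crest.Agent.N76.Red

variable {n : ℕ}

/-- Cauchy-Schwarz for lower integrals -/
theorem lintegral_cs {α : Type*} [MeasurableSpace α] (μ : Measure α) {f g : α → ℝ≥0∞}
    (hf : AEMeasurable f μ) (hg : AEMeasurable g μ) :
    (∫⁻ a, f a * g a ∂μ) ^ 2 ≤ (∫⁻ a, f a ^ 2 ∂μ) * ∫⁻ a, g a ^ 2 ∂μ := by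
  have h := ENNReal.lintegral_mul_le_Lp_mul_Lq μ Real.HolderConjugate.two_two hf hg
  simp only [Pi.mul_apply, ENNReal.rpow_two] at h
  calc (∫⁻ a, f a * g a ∂μ) ^ 2
      ≤ ((∫⁻ a, f a ^ 2 ∂μ) ^ (1 / 2 : ℝ) * (∫⁻ a, g a ^ 2 ∂μ) ^ (1 / 2 : ℝ)) ^ 2 := by gcongr
    _ = _ := by
      rw [mul_pow, ← ENNReal.rpow_two, ← ENNReal.rpow_two, ← ENNReal.rpow_mul,
        ← ENNReal.rpow_mul]
      norm_num

theorem enorm_integral_sq_le {α : Type*} [MeasurableSpace α] (μ : Measure α) {f : α → ℂ}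
    (hf : AEStronglyMeasurable f μ) :
    ‖∫ a, f a ∂μ‖ₑ ^ 2 ≤ μ univ * ∫⁻ a, ‖f a‖ₑ ^ 2 ∂μ := by
  have h := lintegral_cs μ (f := fun _ => 1) (g := fun a => ‖f a‖ₑ) aemeasurable_const hf.enorm
  simp only [one_mul, one_pow, lintegral_const] at h
  exact (pow_le_pow_left' (enorm_integral_le_lintegral_enorm f) 2).trans h

/-- the average of exponentials -/
noncomputable def avg (r : ℝ) : ℂ := ∫ η in Icc (-(1 / 6) : ℝ) (1 / 6), ph (r * η)

theorem continuous_avg : Continuous avg := by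
  unfold avg
  refine continuous_of_dominated (bound := fun _ => 1) (fun p => ?_) (fun p => ?_) ?_ ?_
  · exact (continuous_ph.comp (by fun_prop)).aestronglyMeasurable
  · exact Filter.Eventually.of_forall fun x => (norm_ph _).le
  · exact integrableOn_const (by simp)
  · exact Filter.Eventually.of_forall fun x => continuous_ph.comp (by fun_prop)

theorem le_norm_avg {r : ℝ} (hr : |r| ≤ 1) : 1 / 6 ≤ ‖avg r‖ := by
  refine le_trans ?_ (Complex.re_le_norm _)
  have hint : IntegrableOn (fun η : ℝ => ph (r * η)) (Icc (-(1 / 6) : ℝ) (1 / 6)) :=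
    (continuous_ph.comp (by fun_prop)).integrableOn_Icc
  have h2 := integral_re (𝕜 := ℂ) hint
  simp only [RCLike.re_to_complex] at h2
  unfold avg
  rw [← h2]
  have h3 : ∫ _ in Icc (-(1 / 6) : ℝ) (1 / 6), (1 / 2 : ℝ) = 1 / 6 := by
    rw [setIntegral_const]; simp; norm_num
  refine h3.symm.le.trans ?_
  refine setIntegral_mono_on (integrableOn_const (by simp)) hint.re measurableSet_Icc
    fun η hη => half_le_re_ph ?_
  rw [abs_mul]
  have : |η| ≤ 1 / 6 := abs_le.2 hη
  nlinarith [abs_nonneg r, abs_nonneg η]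

/-- **Thickening.** -/
theorem thick {E : Set (V n)} (hE : MeasurableSet E) (hfin : volume E ≠ ∞) {g : V n → ℂ}
    (hg : Adm E g) {p : V n → ℝ} (hp : Measurable p) (hp1 : ∀ x ∈ E, |p x| ≤ 1) :
    ∃ g' : V n → ℂ, Adm E g' ∧ ∀ Θ : V n → ℝ, Measurable Θ →
      ‖∫ x, g x * ph (Θ x)‖ₑ ^ 2 ≤
        12 * ∫⁻ η in Icc (-(1 / 6) : ℝ) (1 / 6), ‖∫ x, g' x * ph (Θ x + p x * η)‖ₑ ^ 2 := by
  have hm : Measurable fun x => avg (p x) := continuous_avg.measurable.comp hp
  have hg' : Adm E (fun x => g x / (6 * avg (p x))) := by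
    refine ⟨hg.1.div (hm.const_mul _), fun x => ?_, fun x hx => by simp [hg.2.2 x hx]⟩
    by_cases hx : x ∈ E
    · have h1 := le_norm_avg (hp1 x hx)
      rw [norm_div, norm_mul, div_le_one (by simp only [Complex.norm_ofNat]; linarith)]
      simp only [Complex.norm_ofNat]
      linarith [hg.2.1 x]
    · simp [hg.2.2 x hx]
  refine ⟨_, hg', fun Θ hΘ => ?_⟩
  set g' : V n → ℂ := fun x => g x / (6 * avg (p x)) with hg'def
  have hi : Integrable g' := hg'.integrable hE hfin
  have h1 : ∀ x, g x * ph (Θ x) =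
      6 * ∫ η in Icc (-(1 / 6) : ℝ) (1 / 6), g' x * ph (Θ x + p x * η) := by
    intro x
    simp_rw [ph_add, ← mul_assoc]
    rw [integral_const_mul]
    change _ = 6 * (g' x * ph (Θ x) * avg (p x))
    by_cases hx : x ∈ E
    · have h1 := le_norm_avg (hp1 x hx)
      have h2 : avg (p x) ≠ 0 := by
        intro h; rw [h, norm_zero] at h1; norm_num at h1
      simp only [hg'def]; field_simp
    · simp [hg'def, hg.2.2 x hx]
  have hprod : Integrable (Function.uncurry fun (x : V n) (η : ℝ) => g' x * ph (Θ x + p x * η))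
      (volume.prod (volume.restrict (Icc (-(1 / 6) : ℝ) (1 / 6)))) := by
    have hb : Integrable (fun q : V n × ℝ => ‖g' q.1‖ * (1 : ℝ))
        (volume.prod (volume.restrict (Icc (-(1 / 6) : ℝ) (1 / 6)))) :=
      hi.norm.mul_prod (integrableOn_const (by simp))
    refine hb.mono' ?_ (Filter.Eventually.of_forall fun q => ?_)
    · exact hi.1.comp_fst.mul (measurable_ph.comp (by fun_prop)).aestronglyMeasurable
    · simp [Function.uncurry, norm_ph]
  simp_rw [h1]
  rw [integral_const_mul, integral_integral_swap hprod, enorm_mul, mul_pow]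
  have h3 := enorm_integral_sq_le (volume.restrict (Icc (-(1 / 6) : ℝ) (1 / 6)))
    hprod.integral_prod_right.1
  simp only [Function.uncurry] at h3
  have h4 : (volume.restrict (Icc (-(1 / 6) : ℝ) (1 / 6))) univ = ENNReal.ofReal (1 / 3) := by
    rw [Measure.restrict_apply_univ, Real.volume_Icc]; norm_num
  rw [h4] at h3
  have h5 : ‖(6 : ℂ)‖ₑ ^ 2 * ENNReal.ofReal (1 / 3) = 12 := by
    rw [enorm_sq_eq, ← ENNReal.ofReal_mul (by positivity)]
    simp only [Complex.norm_ofNat]
    norm_num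
  rw [← h5, mul_assoc]
  gcongr

end Crest.Agent.N76.Red
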