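import Crest.Agent.N76.Red.Orth
import Crest.Agent.N76.Red.Thick
import Crest.Agent.N76.Red.Scale

/-! # Row 76: localisation in time (helper14). -/

set_option autoImplicit false

open MeasureTheory Set Metric
open scoped ENNReal RealInnerProductSpace

namespace Crest.Agent.N76.Red

variable {n : ℕ}

theorem measurable_HH_sq {g : V n → ℂ} (hg : Integrable g) {τ : V n → ℝ} (hτ : Measurable τ) :
    Measurable (fun p : V n × ℝ => ‖HH g τ p.1 p.2‖ₑ ^ 2) :=
  (continuous_HH hg hτ).measurable.enorm.pow_const 2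

theorem measurableSet_floor_fibre {τ : V n → ℝ} (hτ : Measurable τ) (N : ℝ) (j : ℤ) :
    MeasurableSet ((fun x => ⌊N * τ x⌋) ⁻¹' {j}) :=
  (Int.measurable_floor.comp (hτ.const_mul N)) (measurableSet_singleton j)

theorem floor_sep {a b : ℝ} (hne : ⌊a⌋ ≠ ⌊b⌋) (hpar : ⌊a⌋ % 2 = ⌊b⌋ % 2) : 1 ≤ |a - b| := by
  have h1 := Int.floor_le a
  have h2 := Int.lt_floor_add_one a
  have h3 := Int.floor_le b
  have h4 := Int.lt_floor_add_one b
  have h : ⌊a⌋ + 2 ≤ ⌊b⌋ ∨ ⌊b⌋ + 2 ≤ ⌊a⌋ := by omega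
  rcases h with h | h
  · have : (⌊a⌋ : ℝ) + 2 ≤ ⌊b⌋ := by exact_mod_cast h
    rw [le_abs]; right; linarith
  · have : (⌊b⌋ : ℝ) + 2 ≤ ⌊a⌋ := by exact_mod_cast h
    rw [le_abs]; left; linarith

/-- orthogonality of the time windows against the majorant -/
theorem time_maj {ψ : ℝ → ℝ} (hψ : IsMaj ℝ ψ) {E : Set (V n)} (hE : MeasurableSet E)
    (hfin : volume E ≠ ∞) {τ : V n → ℝ} (hτ : Measurable τ) {g : V n → ℂ} (hg : Adm E g)
    {N : ℝ} (s : Finset ℤ) (hs : ∀ x ∈ E, ⌊N * τ x⌋ ∈ s) (M : ℝ) :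
    ∫⁻ ζ in closedBall (0 : V n) M, ∫⁻ v, ENNReal.ofReal (ψ v) *
        ‖HH g τ ζ (‖ζ‖ ^ 2 + 2 * N * v)‖ₑ ^ 2 ≤
      2 * (∫⁻ v, ENNReal.ofReal (ψ v)) *
        ∑ j ∈ s, Phi (E ∩ (fun x => ⌊N * τ x⌋) ⁻¹' {j}) τ M := by
  classical
  set ℓ : V n → ℤ := fun x => ⌊N * τ x⌋ with hℓ
  set G : ℤ → V n → ℂ := fun j => (ℓ ⁻¹' {j}).indicator g with hG
  have hGi : ∀ j, Integrable (G j) := fun j =>
    (hg.integrable hE hfin).indicator (measurableSet_floor_fibre hτ N j)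
  have htr : ∀ j ζ v, HH (G j) τ ζ (‖ζ‖ ^ 2 + 2 * N * v) =
      tr (fun x => G j x * ph (⟪x, ζ⟫ + τ x * ‖ζ‖ ^ 2)) (fun x => 2 * N * τ x) v := by
    intro j ζ v
    unfold HH tr
    congr 1; ext x
    rw [mul_assoc (G j x), ← ph_add]; congr 2
    simp only [RCLike.inner_apply, conj_trivial]; ring
  have hmeas : ∀ j, Measurable fun q : V n × ℝ => ENNReal.ofReal (ψ q.2) *
      ‖HH (G j) τ q.1 (‖q.1‖ ^ 2 + 2 * N * q.2)‖ₑ ^ 2 := fun j =>
    (hψ.cont.measurable.comp measurable_snd).ennreal_ofReal.mul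
      ((measurable_HH_sq (hGi j) hτ).comp
        (f := fun q : V n × ℝ => (q.1, ‖q.1‖ ^ 2 + 2 * N * q.2)) (by fun_prop))
  calc ∫⁻ ζ in closedBall (0 : V n) M, ∫⁻ v, ENNReal.ofReal (ψ v) *
        ‖HH g τ ζ (‖ζ‖ ^ 2 + 2 * N * v)‖ₑ ^ 2
      ≤ ∫⁻ ζ in closedBall (0 : V n) M, 2 * ∑ j ∈ s, ∫⁻ v, ENNReal.ofReal (ψ v) *
        ‖HH (G j) τ ζ (‖ζ‖ ^ 2 + 2 * N * v)‖ₑ ^ 2 := by
        refine lintegral_mono fun ζ => ?_
        have h1 : ∀ v, HH g τ ζ (‖ζ‖ ^ 2 + 2 * N * v) =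
            ∑ j ∈ s, HH (G j) τ ζ (‖ζ‖ ^ 2 + 2 * N * v) := by
          intro v
          rw [← HH_sum s G (fun j _ => hGi j) hτ, ← eq_sum_fibres hg ℓ s hs]
        simp_rw [h1, htr]
        have h2 := orth_colour hψ s
          (fun j x => G j x * ph (⟪x, ζ⟫ + τ x * ‖ζ‖ ^ 2))
          (fun j _ => integrable_mul_ph (hGi j) (measurable_phase hτ _ _))
          (θ := fun x => 2 * N * τ x) (hτ.const_mul _) (fun j : ℤ => decide (j % 2 = 0)) ?_
        · simpa using h2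
        · intro i _ j _ hne hcol x y hx hy
          have hx' : ℓ x = i := by
            by_contra h
            exact hx (by simp [hG, indicator_of_notMem (show x ∉ ℓ ⁻¹' {i} from h)])
          have hy' : ℓ y = j := by
            by_contra h
            exact hy (by simp [hG, indicator_of_notMem (show y ∉ ℓ ⁻¹' {j} from h)])
          have hpar : i % 2 = j % 2 := by
            have : i % 2 = 0 ↔ j % 2 = 0 := by simpa using hcol
            omega
          have h3 := floor_sep (a := N * τ x) (b := N * τ y)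
            (by change ℓ x ≠ ℓ y; rw [hx', hy']; exact hne)
            (by change ℓ x % 2 = ℓ y % 2; rw [hx', hy']; exact hpar)
          rw [Real.norm_eq_abs, show 2 * N * τ x - 2 * N * τ y = 2 * (N * τ x - N * τ y) by ring,
            abs_mul, abs_two]
          linarith
    _ = 2 * ∑ j ∈ s, ∫⁻ v, ENNReal.ofReal (ψ v) * ∫⁻ ζ in closedBall (0 : V n) M,
        ‖HH (G j) τ ζ (‖ζ‖ ^ 2 + 2 * N * v)‖ₑ ^ 2 := by
        rw [lintegral_const_mul' _ _ (by norm_num),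
          lintegral_finsetSum _ fun j _ => (hmeas j).lintegral_prod_right']
        congr 1
        refine Finset.sum_congr rfl fun j _ => ?_
        rw [lintegral_lintegral_swap (hmeas j).aemeasurable]
        refine lintegral_congr fun v => ?_
        exact lintegral_const_mul' (ENNReal.ofReal (ψ v)) _ ENNReal.ofReal_ne_top
    _ ≤ 2 * ∑ j ∈ s, ∫⁻ v, ENNReal.ofReal (ψ v) * Phi (E ∩ ℓ ⁻¹' {j}) τ M := by
        gcongr with j hj v
        have := lintegral_HH_shift_le (hg.indicator (measurableSet_floor_fibre hτ N j)) hτ M 0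
          (2 * N * v)
        simpa using this
    _ = _ := by
        rw [mul_assoc]
        congr 1
        rw [Finset.mul_sum]
        refine Finset.sum_congr rfl fun j _ => ?_
        rw [lintegral_mul_const _ hψ.cont.measurable.ennreal_ofReal]

/-- the one dimensional change of variables -/
theorem cov_one {ψ : ℝ → ℝ} (hψ : IsMaj ℝ ψ) (F : ℝ → ℝ≥0∞) {N a d : ℝ} (hN : 1 ≤ N) (hd : 1 ≤ d)
    (ha : d - 1 / 6 ≤ |a|) (ha' : |a| ≤ 3 * N) :
    ∫⁻ η in Icc (-(1 / 6) : ℝ) (1 / 6), F (η ^ 2 - 2 * η * a) ≤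
      ENNReal.ofReal (2 * N / d) * ∫⁻ v, ENNReal.ofReal (ψ v) * F (2 * N * v) := by
  have hder : ∀ η ∈ Icc (-(1 / 6) : ℝ) (1 / 6), HasDerivWithinAt (fun η : ℝ => η ^ 2 - 2 * η * a)
      (2 * η - 2 * a) (Icc (-(1 / 6) : ℝ) (1 / 6)) η := by
    intro η _
    have h1 : HasDerivAt (fun η : ℝ => η ^ 2 - 2 * η * a) (2 * η - 2 * a) η := by
      have := (hasDerivAt_pow 2 η).fun_sub (((hasDerivAt_id' η).const_mul 2).mul_const a)
      simpa using this
    exact h1.hasDerivWithinAt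
  have hinj : InjOn (fun η : ℝ => η ^ 2 - 2 * η * a) (Icc (-(1 / 6) : ℝ) (1 / 6)) := by
    intro x hx y hy hxy
    have h1 : (x - y) * (x + y - 2 * a) = 0 := by simp only at hxy; nlinarith
    rcases mul_eq_zero.1 h1 with h | h
    · linarith
    · exfalso
      have : |a| ≤ 1 / 6 := by rw [abs_le]; constructor <;> linarith [hx.1, hx.2, hy.1, hy.2]
      linarith
  have h1 := lintegral_image_eq_lintegral_abs_deriv_mul measurableSet_Icc hder hinj F
  have h2 : ∫⁻ η in Icc (-(1 / 6) : ℝ) (1 / 6), F (η ^ 2 - 2 * η * a) ≤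
      ENNReal.ofReal (1 / d) * ∫⁻ η in Icc (-(1 / 6) : ℝ) (1 / 6),
        ENNReal.ofReal |2 * η - 2 * a| * F (η ^ 2 - 2 * η * a) := by
    rw [← lintegral_const_mul' _ _ ENNReal.ofReal_ne_top]
    refine setLIntegral_mono' measurableSet_Icc fun η hη => ?_
    rw [← mul_assoc, ← ENNReal.ofReal_mul (by positivity)]
    refine le_mul_of_one_le_left' ?_
    rw [← ENNReal.ofReal_one]
    refine ENNReal.ofReal_le_ofReal ?_
    have h3 : |η| ≤ 1 / 6 := abs_le.2 hη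
    have h4 : |a| - |η| ≤ |η - a| := by rw [abs_sub_comm]; exact abs_sub_abs_le_abs_sub a η
    rw [show 2 * η - 2 * a = 2 * (η - a) by ring, abs_mul, abs_two, one_div_mul_eq_div,
      le_div_iff₀ (by linarith)]
    linarith
  have h3 : ∫⁻ u in (fun η : ℝ => η ^ 2 - 2 * η * a) '' Icc (-(1 / 6) : ℝ) (1 / 6), F u ≤
      ENNReal.ofReal (2 * N) * ∫⁻ v, ENNReal.ofReal (ψ v) * F (2 * N * v) := by
    have hsub : (fun η : ℝ => η ^ 2 - 2 * η * a) '' Icc (-(1 / 6) : ℝ) (1 / 6) ⊆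
        closedBall 0 (2 * N) := by
      rintro _ ⟨η, hη, rfl⟩
      have h3 : |η| ≤ 1 / 6 := abs_le.2 hη
      rw [mem_closedBall_zero_iff, Real.norm_eq_abs]
      refine (abs_sub _ _).trans ?_
      rw [abs_pow, abs_mul, abs_mul, abs_two]
      nlinarith [abs_nonneg η, abs_nonneg a]
    refine (lintegral_mono_set hsub).trans ?_
    rw [← lintegral_indicator measurableSet_closedBall,
      lintegral_smul_eq _ (show 0 < 2 * N by linarith)]
    simp only [Module.finrank_self, pow_one, smul_eq_mul]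
    gcongr with v
    by_cases hv : 2 * N * v ∈ closedBall (0 : ℝ) (2 * N)
    · rw [indicator_of_mem hv]
      refine le_mul_of_one_le_left' ?_
      rw [← ENNReal.ofReal_one]
      refine ENNReal.ofReal_le_ofReal (hψ.one_le v ?_)
      rw [mem_closedBall_zero_iff, norm_mul, Real.norm_of_nonneg (by linarith)] at hv
      nlinarith
    · rw [indicator_of_notMem hv]; exact zero_le
  refine h2.trans ?_
  rw [← h1, show 2 * N / d = 1 / d * (2 * N) by ring, ENNReal.ofReal_mul (by positivity),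
    mul_assoc]
  gcongr

theorem abs_coord_le (x : V n) (i : Fin n) : |x i| ≤ ‖x‖ := by
  simpa using PiLp.norm_apply_le x i

/-- time localisation in the cone around a coordinate axis -/
theorem timeLoc_cone {ψ : ℝ → ℝ} (hψ : IsMaj ℝ ψ) {E : Set (V n)} (hE : MeasurableSet E)
    (hEB : E ⊆ closedBall 0 1) {τ : V n → ℝ} (hτ : Measurable τ) {g : V n → ℂ} (hg : Adm E g)
    {N d : ℝ} (hN : 1 ≤ N) (hd : 1 ≤ d) (s : Finset ℤ) (hs : ∀ x ∈ E, ⌊N * τ x⌋ ∈ s) (i : Fin n) :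
    ∫⁻ ξ in {ξ : V n | ‖ξ‖ ≤ 2 * N ∧ d ≤ |ξ i|}, ‖H g τ ξ‖ₑ ^ 2 ≤
      12 * (ENNReal.ofReal (2 * N / d) * (2 * (∫⁻ v, ENNReal.ofReal (ψ v)) *
        ∑ j ∈ s, Phi (E ∩ (fun x => ⌊N * τ x⌋) ⁻¹' {j}) τ (3 * N))) := by
  have hfin : volume E ≠ ∞ := ((measure_mono hEB).trans_lt measure_closedBall_lt_top).ne
  obtain ⟨g', hg', hth⟩ := thick hE hfin hg (p := fun x => x i) (by fun_prop)
    (fun x hx => (abs_coord_le x i).trans (mem_closedBall_zero_iff.1 (hEB hx)))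
  have hi : Integrable g' := hg'.integrable hE hfin
  set e : V n := EuclideanSpace.single i 1 with he
  set A : Set (V n) := {ξ : V n | ‖ξ‖ ≤ 2 * N ∧ d ≤ |ξ i|} with hA
  set A' : Set (V n) := {ξ : V n | ‖ξ‖ ≤ 3 * N ∧ d - 1 / 6 ≤ |ξ i|} with hA'
  have mabs : Measurable fun ξ : V n => |ξ i| := by fun_prop
  have mA : MeasurableSet A :=
    (measurableSet_le measurable_norm measurable_const).inter
      (measurableSet_le measurable_const mabs)
  have mA' : MeasurableSet A' :=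
    (measurableSet_le measurable_norm measurable_const).inter
      (measurableSet_le measurable_const mabs)
  set F : V n × ℝ → ℝ≥0∞ := fun p => ‖HH g' τ p.1 p.2‖ₑ ^ 2 with hF
  have mF : Measurable F := measurable_HH_sq hi hτ
  have hnorm : ∀ (ζ : V n) (η : ℝ), ‖ζ - η • e‖ ^ 2 = ‖ζ‖ ^ 2 + (η ^ 2 - 2 * η * ζ i) := by
    intro ζ η
    rw [norm_sub_sq_real, inner_smul_right, norm_smul, he, EuclideanSpace.inner_single_right]
    simp; ring
  calc ∫⁻ ξ in A, ‖H g τ ξ‖ₑ ^ 2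
      ≤ ∫⁻ ξ in A, 12 * ∫⁻ η in Icc (-(1 / 6) : ℝ) (1 / 6), F (ξ + η • e, ‖ξ‖ ^ 2) := by
        refine lintegral_mono fun ξ => ?_
        refine (hth _ (measurable_phase hτ ξ (‖ξ‖ ^ 2))).trans (le_of_eq ?_)
        congr 1
        refine lintegral_congr fun η => ?_
        simp only [hF, HH]
        congr 3; ext x; congr 2
        rw [inner_add_right, inner_smul_right, he, EuclideanSpace.inner_single_right]
        simp; ring
    _ = 12 * ∫⁻ η in Icc (-(1 / 6) : ℝ) (1 / 6), ∫⁻ ξ in A, F (ξ + η • e, ‖ξ‖ ^ 2) := by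
        rw [lintegral_const_mul' _ _ (by norm_num), lintegral_lintegral_swap]
        exact (mF.comp (f := fun q : V n × ℝ => (q.1 + q.2 • e, ‖q.1‖ ^ 2))
          (by fun_prop)).aemeasurable
    _ ≤ 12 * ∫⁻ η in Icc (-(1 / 6) : ℝ) (1 / 6), ∫⁻ ζ in A',
          F (ζ, ‖ζ‖ ^ 2 + (η ^ 2 - 2 * η * ζ i)) := by
        gcongr 12 * ?_
        refine setLIntegral_mono' measurableSet_Icc fun η hη => ?_
        have h3 : |η| ≤ 1 / 6 := abs_le.2 hη
        rw [← lintegral_indicator mA, ← lintegral_indicator mA',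
          ← lintegral_sub_right_eq_self _ (η • e)]
        refine lintegral_mono fun ζ => ?_
        by_cases hζ : ζ - η • e ∈ A
        · have h4 : ζ ∈ A' := by
            obtain ⟨h5, h6⟩ := hζ
            have h7 : ‖η • e‖ ≤ 1 / 6 := by rw [norm_smul, he]; simpa using h3
            have h8 : ‖ζ‖ ≤ ‖ζ - η • e‖ + ‖η • e‖ := by
              simpa using norm_add_le (ζ - η • e) (η • e)
            have h9 : (ζ - η • e) i = ζ i - η := by simp [he]
            rw [h9] at h6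
            exact ⟨by linarith, by linarith [abs_sub (ζ i) η]⟩
          rw [indicator_of_mem hζ, indicator_of_mem h4, sub_add_cancel, hnorm]
        · rw [indicator_of_notMem hζ]; exact zero_le
    _ = 12 * ∫⁻ ζ in A', ∫⁻ η in Icc (-(1 / 6) : ℝ) (1 / 6),
          F (ζ, ‖ζ‖ ^ 2 + (η ^ 2 - 2 * η * ζ i)) := by
        rw [lintegral_lintegral_swap]
        exact (mF.comp (f := fun q : ℝ × V n => (q.2, ‖q.2‖ ^ 2 + (q.1 ^ 2 - 2 * q.1 * q.2 i)))
          (by fun_prop)).aemeasurable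
    _ ≤ 12 * ∫⁻ ζ in A', ENNReal.ofReal (2 * N / d) *
          ∫⁻ v, ENNReal.ofReal (ψ v) * F (ζ, ‖ζ‖ ^ 2 + 2 * N * v) := by
        gcongr 12 * ?_
        refine setLIntegral_mono' mA' fun ζ hζ => ?_
        exact cov_one hψ (fun u => F (ζ, ‖ζ‖ ^ 2 + u)) hN hd hζ.2 ((abs_coord_le ζ i).trans hζ.1)
    _ ≤ _ := by
        rw [lintegral_const_mul' _ _ ENNReal.ofReal_ne_top]
        gcongr
        refine le_trans (lintegral_mono_set fun ζ hζ => mem_closedBall_zero_iff.2 hζ.1) ?_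
        exact time_maj hψ hE hfin hτ hg' s hs (3 * N)

/-- **Time localisation.** -/
theorem timeLoc (n : ℕ) : ∃ C : ℝ≥0∞, C ≠ ∞ ∧ ∀ N : ℝ, 1 ≤ N → (n : ℝ) ≤ N →
    ∀ E : Set (V n), MeasurableSet E → E ⊆ closedBall 0 1 → ∀ τ : V n → ℝ, Measurable τ →
    ∀ g : V n → ℂ, Adm E g → ∀ s : Finset ℤ, (∀ x ∈ E, ⌊N * τ x⌋ ∈ s) →
      ∫⁻ ξ in {ξ : V n | N ≤ ‖ξ‖ ∧ ‖ξ‖ ≤ 2 * N}, ‖H g τ ξ‖ₑ ^ 2 ≤
        C * ∑ j ∈ s, Phi (E ∩ (fun x => ⌊N * τ x⌋) ⁻¹' {j}) τ (3 * N) := by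
  obtain ⟨ψ, hψ⟩ := exists_isMaj ℝ
  have hΨ : ∫⁻ v, ENNReal.ofReal (ψ v) ≠ ∞ := hψ.int.lintegral_lt_top.ne
  refine ⟨n * (12 * (ENNReal.ofReal (2 * n) * (2 * ∫⁻ v, ENNReal.ofReal (ψ v)))), ?_,
    fun N hN hnN E hE hEB τ hτ g hg s hs => ?_⟩
  · finiteness
  have hsub : {ξ : V n | N ≤ ‖ξ‖ ∧ ‖ξ‖ ≤ 2 * N} ⊆
      ⋃ i : Fin n, {ξ : V n | ‖ξ‖ ≤ 2 * N ∧ N / n ≤ |ξ i|} := by
    intro ξ hξ
    by_contra hcon
    simp only [mem_iUnion, mem_setOf_eq, not_exists, not_and, not_le] at hcon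
    have h1 : ∀ i, |ξ i| < N / n := fun i => hcon i hξ.2
    rcases Nat.eq_zero_or_pos n with h0 | h0
    · subst h0
      have : ξ = 0 := Subsingleton.elim _ _
      have h2 := hξ.1
      rw [this, norm_zero] at h2; linarith
    have hn : (1 : ℝ) ≤ n := by exact_mod_cast h0
    have h2 : ‖ξ‖ ^ 2 < ∑ _i : Fin n, (N / n) ^ 2 := by
      rw [EuclideanSpace.real_norm_sq_eq]
      have : Nonempty (Fin n) := ⟨⟨0, h0⟩⟩
      refine Finset.sum_lt_sum_of_nonempty Finset.univ_nonempty fun i _ => ?_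
      rw [← sq_abs]
      exact pow_lt_pow_left₀ (h1 i) (abs_nonneg _) two_ne_zero
    simp only [Finset.sum_const, Finset.card_univ, Fintype.card_fin, nsmul_eq_mul] at h2
    have h3 : (n : ℝ) * (N / n) ^ 2 ≤ N ^ 2 := by
      rw [div_pow, ← mul_div_assoc, div_le_iff₀ (by positivity)]
      nlinarith [sq_nonneg N, mul_nonneg (sq_nonneg N) (by linarith : (0 : ℝ) ≤ n)]
    have h4 : N ^ 2 ≤ ‖ξ‖ ^ 2 := pow_le_pow_left₀ (by linarith) hξ.1 2
    linarith
  refine (lintegral_mono_set hsub).trans ((lintegral_iUnion_le _ _).trans ?_)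
  rw [tsum_fintype]
  rcases Nat.eq_zero_or_pos n with h0 | h0
  · subst h0; simp
  have hn : (0 : ℝ) < n := by exact_mod_cast h0
  refine (Finset.sum_le_sum fun i _ => timeLoc_cone hψ hE hEB hτ hg hN
    ((one_le_div hn).2 hnN) s hs i).trans (le_of_eq ?_)
  have : 2 * N / (N / n) = 2 * n := by field_simp
  simp only [Finset.sum_const, Finset.card_univ, Fintype.card_fin, nsmul_eq_mul, this, mul_assoc]

end Crest.Agent.N76.Red
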